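import Vale.Agent.P158.Units.Count
import Vale.Agent.P158.Planar

/-!
From lines with margins to the count: selection of lines avoiding each other's entrance edges, and
the margins as lower bounds on the increments of potential differences.
-/

open MeasureTheory Filter Topology

namespace Vale.Agent.P158.Units

theorem sideMeet {σ : ℤ} (hσ : σ = 1 ∨ σ = -1) : SideMeet σ := by
  intro c v₁ v₂ v₃ v₄ h₁₂ h₂₃ h₃₄ P Q hP hQ
  have hlev : ∀ z : V, lev 0 z = z.1 := fun z => by simp [lev]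
  rcases hσ with rfl | rfl
  · exact meet_left (Or.inl rfl) (L := c) P Q
      (fun x hx => by rw [hlev]; simpa using hP x hx) (fun x hx => by rw [hlev]; simpa using hQ x hx)
      (by simp [hlev]) (by simp [hlev]) (by simp [hlev]) (by simp [hlev])
      (by simpa using h₁₂) (by simpa using h₂₃) (by simpa using h₃₄)
  · obtain ⟨x, h1, h2⟩ := meet_right (Or.inl rfl) (L := -c) Q.reverse P.reverse
      (fun x hx => by
        rw [SimpleGraph.Walk.support_reverse, List.mem_reverse] at hx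
        have := hQ x hx; rw [hlev]; omega)
      (fun x hx => by
        rw [SimpleGraph.Walk.support_reverse, List.mem_reverse] at hx
        have := hP x hx; rw [hlev]; omega)
      (by simp [hlev]) (by simp [hlev]) (by simp [hlev]) (by simp [hlev])
      (by simpa using h₃₄) (by simpa using h₂₃) (by simpa using h₁₂)
    rw [SimpleGraph.Walk.support_reverse, List.mem_reverse] at h1 h2
    exact ⟨x, h2, h1⟩

/-- A subset on which a quadratic form is at least its mean under independent sampling. -/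
theorem exists_subset_quad {ι : Type*} [DecidableEq ι] (Z : Finset ι) (A : ι → ι → ℝ)
    (hA : ∀ y, A y y = 0) {p : ℝ} (hp0 : 0 ≤ p) (hp1 : p ≤ 1) :
    ∀ w : ι → ℝ, ∃ Z' ⊆ Z, p * ∑ y ∈ Z, w y - p ^ 2 * ∑ y ∈ Z, ∑ z ∈ Z, A y z ≤
      ∑ y ∈ Z', w y - ∑ y ∈ Z', ∑ z ∈ Z', A y z := by
  induction Z using Finset.induction_on with
  | empty => exact fun w => ⟨∅, subset_rfl, by simp⟩
  | @insert x Z hx ih =>
    intro w
    obtain ⟨Z₁, hZ₁, h₁⟩ := ih fun y => w y - A x y - A y x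
    obtain ⟨Z₀, hZ₀, h₀⟩ := ih w
    have key : p * ∑ y ∈ insert x Z, w y - p ^ 2 * ∑ y ∈ insert x Z, ∑ z ∈ insert x Z, A y z ≤
        p * (∑ y ∈ insert x Z₁, w y - ∑ y ∈ insert x Z₁, ∑ z ∈ insert x Z₁, A y z) +
        (1 - p) * (∑ y ∈ Z₀, w y - ∑ y ∈ Z₀, ∑ z ∈ Z₀, A y z) := by
      have hx₁ : x ∉ Z₁ := fun h => hx (hZ₁ h)
      simp only [Finset.sum_insert hx, Finset.sum_insert hx₁, Finset.sum_add_distrib,
        Finset.sum_sub_distrib, hA] at h₁ ⊢
      nlinarith [mul_le_mul_of_nonneg_left h₁ hp0,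
        mul_le_mul_of_nonneg_left h₀ (sub_nonneg.2 hp1)]
    rcases le_total (∑ y ∈ insert x Z₁, w y - ∑ y ∈ insert x Z₁, ∑ z ∈ insert x Z₁, A y z)
        (∑ y ∈ Z₀, w y - ∑ y ∈ Z₀, ∑ z ∈ Z₀, A y z) with hle | hle
    · exact ⟨Z₀, hZ₀.trans (Finset.subset_insert _ _), by
        nlinarith [mul_le_mul_of_nonneg_left hle hp0]⟩
    · exact ⟨insert x Z₁, Finset.insert_subset_insert _ hZ₁, by
        nlinarith [mul_le_mul_of_nonneg_left hle (sub_nonneg.2 hp1)]⟩

/-- Lines that avoid each other's entrance edges: the margins give the linear bound. -/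
theorem card_free_le {t : Conf} {M δ : ℝ} (hM : InRange M t) {N n : ℕ} {a b : Fin N → ℝ}
    {R J : ℕ} (hab : ∀ i j, i < j → b i < a j) (K : Finset (ℕ × Fin N))
    (hK : ∀ o ∈ K, o.1 < n) (hδ : 0 < δ) (γ : ℕ × Fin N → ℤ → V)
    (hγ : ∀ o ∈ K, Line t δ (a o.2) (b o.2) R J o.1 (γ o))
    (hfree : ∀ o ∈ K, ∀ q ∈ K, q.1 ≠ o.1 → ∀ i : ℤ, edgeOf (γ o i) (γ o (i + 1)) ≠ eY q.1) :
    δ * K.card ≤ δ * N + 4 * M * n := by
  classical
  set S : Set Edge := {e | ∀ q ∈ K, e ≠ eY q.1} with hSdef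
  have hS : ∀ e : Edge, e.2 = true → e ∈ S := fun e he q _ heq => by simp [heq, eY] at he
  have hmem : ∀ o ∈ K, ∀ i : ℤ, i ≠ -1 → edgeOf (γ o i) (γ o (i + 1)) ∈ S := by
    intro o ho i hi q hq heq
    rcases eq_or_ne q.1 o.1 with hqo | hqo
    · have he : edgeOf (γ o (-1)) (γ o (-1 + 1)) = eY q.1 := by
        rw [show (-1 : ℤ) + 1 = 0 by norm_num, (hγ o ho).start, (hγ o ho).before, hqo]
        simp [edgeOf, eY]
      rcases adj_edgeOf_inj ((hγ o ho).adj i) ((hγ o ho).adj (-1)) (heq.trans he.symm) with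
        ⟨h, -⟩ | ⟨h, h'⟩
      · exact hi ((hγ o ho).inj h)
      · have := (hγ o ho).inj h
        have := (hγ o ho).inj h'
        omega
    · exact hfree o ho q hq hqo i heq
  set rA : ℕ × Fin N → ℕ → V := fun o k => γ o (-((k : ℤ) + 1)) with hrA
  set rB : ℕ × Fin N → ℕ → V := fun o k => γ o k with hrB
  have hnn : ∀ e, 0 ≤ t e := fun e => (hM e).1
  have hA : ∀ o ∈ K, Tail t S (-1) o.1 (a o.2) (b o.2) R (rA o) := by
    intro o ho
    have h := hγ o ho
    refine ⟨by simp [hrA, h.before], fun i j hij => ?_, fun i => ?_, fun i => ?_, fun k W => ?_,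
      fun k hk => ?_⟩
    · have := h.inj hij; omega
    · have h2 := grid.symm.symm _ _ (h.adj (-(((i : ℤ) + 1) + 1)))
      simp only [hrA]; push_cast
      rw [show -(((i : ℤ) + 1) + 1) + 1 = -((i : ℤ) + 1) by ring] at h2
      exact h2
    · simp only [hrA]; push_cast
      rw [edgeOf_comm]
      have := hmem o ho (-(((i : ℤ) + 1) + 1)) (by omega)
      rwa [show -(((i : ℤ) + 1) + 1) + 1 = -((i : ℤ) + 1) by ring] at this
    · show rlen t (fun j => γ o (-((j : ℤ) + 1))) k ≤ _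
      rw [← seg_succ_left]
      rcases k.eq_zero_or_pos with rfl | hk
      · simpa [seg] using plen_nonneg hnn W
      · have h2 := h.geo (-((k : ℤ) + 1)) (-1) (by omega)
          (W.copy rfl (by simp [hrA]))
        rwa [plen_copy] at h2
    · obtain ⟨h1, h2, h3⟩ := h.bwdCone (k + 1) (by omega)
      simp only [hrA]
      push_cast at h1 h2 h3 ⊢
      exact ⟨by omega, by simpa using h2, by simpa using h3⟩
  have hB : ∀ o ∈ K, Tail t S 1 o.1 (a o.2) (b o.2) R (rB o) := by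
    intro o ho
    have h := hγ o ho
    refine ⟨by simp [hrB, h.start], fun i j hij => ?_, fun i => ?_, fun i => ?_, fun k W => ?_,
      fun k hk => ?_⟩
    · have := h.inj hij; omega
    · simp only [hrB]; push_cast; exact h.adj i
    · simp only [hrB]; push_cast; exact hmem o ho i (by omega)
    · show rlen t (fun j => γ o j) k ≤ _
      rw [← seg_succ_right]
      rcases k.eq_zero_or_pos with rfl | hk
      · simpa [seg] using plen_nonneg hnn W
      · have h2 := h.geo 0 k (by omega) (W.reverse.copy (by simp [hrB]) rfl)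
        rwa [plen_copy, plen_reverse] at h2
    · obtain ⟨h1, h2, h3⟩ := h.fwdCone k hk
      simp only [hrB]
      exact ⟨by simpa using h1, by simpa using h2, by simpa using h3⟩
  set A := fun o => pot t S (rA o)
  set B := fun o => pot t S (rB o)
  have hmargin : ∀ o ∈ K, ∀ q ∈ K, q.1 ≠ o.1 →
      δ + t (eY o.1) - t (eY q.1) ≤
        A o (-1, (q.1 : ℤ)) + B o (0, (q.1 : ℤ)) - A o (-1, (o.1 : ℤ)) - B o (0, (o.1 : ℤ)) := by
    intro o ho q hq hqo
    have h := hγ o ho
    have hA0 : rA o 0 = (-1, (o.1 : ℤ)) := by simp [hrA, h.before]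
    have hB0 : rB o 0 = (0, (o.1 : ℤ)) := by simp [hrB, h.start]
    have h3 : A o (-1, (o.1 : ℤ)) ≤ 0 := hA0 ▸ (hA o ho).pot_start
    have h4 : B o (0, (o.1 : ℤ)) ≤ 0 := hB0 ▸ (hB o ho).pot_start
    refine le_of_forall_pos_le_add fun ε hε => ?_
    obtain ⟨C, hC⟩ := walk_col hS (-1) q.1 o.1
    obtain ⟨C', hC'⟩ := walk_col hS 0 q.1 o.1
    obtain ⟨k, W, hW, hlt⟩ := (hA o ho).pot_approx (C.copy rfl hA0.symm)
      (fun d hd => by rw [SimpleGraph.Walk.darts_copy] at hd; exact hC d hd) (half_pos hε)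
    obtain ⟨m, W', hW', hlt'⟩ := (hB o ho).pot_approx (C'.copy rfl hB0.symm)
      (fun d hd => by rw [SimpleGraph.Walk.darts_copy] at hd; exact hC' d hd) (half_pos hε)
    have hadj : grid.Adj ((-1, (q.1 : ℤ)) : V) (0, (q.1 : ℤ)) := by
      show Adj _ _
      simp [Adj]
    have hgap := h.gap k m (W.append (.cons hadj W'.reverse)) (by
      intro d hd
      rw [SimpleGraph.Walk.darts_append, SimpleGraph.Walk.darts_cons, List.mem_append,
        List.mem_cons] at hd
      rcases hd with hd | rfl | hd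
      · exact hW d hd o ho
      · simp [edgeOf, eY, hqo]
      · exact walkIn_reverse hW' d hd o ho)
    rw [plen_append, plen_cons, plen_reverse,
      seg_add t (γ o) (show -((k : ℤ) + 1) ≤ -1 by omega) (show (-1 : ℤ) ≤ m by omega),
      seg_add t (γ o) (show (-1 : ℤ) ≤ 0 by norm_num) (show (0 : ℤ) ≤ m by omega),
      seg_succ_left, seg_succ_right] at hgap
    have he : seg t (γ o) (-1) 0 = t (eY o.1) := by
      rw [seg, show (0 : ℤ) = -1 + 1 by norm_num, Ico_one, Finset.sum_singleton]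
      simp [wt, h.start, h.before, edgeOf, eY]
    have hq : wt t ((-1, (q.1 : ℤ)) : V) (0, (q.1 : ℤ)) = t (eY q.1) := by
      simp [wt, edgeOf, eY]
    simp only [hrA, hrB, A, B] at hlt hlt' h3 h4 ⊢
    linarith
  set P := (K ×ˢ K).filter fun p => p.1.2 = p.2.2 ∧ p.1.1 < p.2.1 ∧
    ∀ q ∈ K, q.2 = p.1.2 → ¬(p.1.1 < q.1 ∧ q.1 < p.2.1) with hPdef
  have hPmem : ∀ p ∈ P, p.1 ∈ K ∧ p.2 ∈ K ∧ p.1.2 = p.2.2 ∧ p.1.1 < p.2.1 := fun p hp => by
    simp only [hPdef, Finset.mem_filter, Finset.mem_product] at hp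
    exact ⟨hp.1.1, hp.1.2, hp.2.1, hp.2.2.1⟩
  have huniq : ∀ u : ℕ, ∀ p ∈ P, ∀ q ∈ P, p.1.1 ≤ u → u < p.2.1 → q.1.1 ≤ u → u < q.2.1 →
      p.1.2 = q.1.2 → p = q := by
    intro u p hp q hq h1 h2 h3 h4 h5
    simp only [hPdef, Finset.mem_filter, Finset.mem_product] at hp hq
    obtain ⟨⟨p1, p2⟩, p3, p4, p5⟩ := hp
    obtain ⟨⟨q1, q2⟩, q3, q4, q5⟩ := hq
    have e1 := p5 q.1 q1 h5.symm
    have e2 := q5 p.1 p1 h5
    have e3 := p5 q.2 q2 (q3.symm.trans h5.symm)
    have e4 := q5 p.2 p2 (p3.symm.trans h5)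
    refine Prod.ext (Prod.ext ?_ h5) (Prod.ext ?_ (p3.symm.trans (h5.trans q3))) <;> omega
  have hin : ∀ {o : ℕ × Fin N}, (∃ p ∈ P, o = p.1 ∨ o = p.2) → o ∈ K := by
    rintro o ⟨p, hp, rfl | rfl⟩
    · exact (hPmem p hp).1
    · exact (hPmem p hp).2.1
  have hP : ∀ p ∈ P, p.1.1 ≤ p.2.1 ∧ p.2.1 < n ∧ p.1.2 = p.2.2 := fun p hp =>
    ⟨(hPmem p hp).2.2.2.le, hK _ (hPmem p hp).2.1, (hPmem p hp).2.2.1⟩
  have sA := side_sum_le hM (Or.inr rfl) (sideMeet (Or.inr rfl)) hab hS (-1) P hP huniq rA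
    (fun o ho => by simp [hrA, (hγ o (hin ho)).before]) (R := fun _ => R)
    (fun o ho => hA o (hin ho))
  have sB := side_sum_le hM (Or.inl rfl) (sideMeet (Or.inl rfl)) hab hS 0 P hP huniq rB
    (fun o ho => by simp [hrB, (hγ o (hin ho)).start]) (R := fun _ => R)
    (fun o ho => hB o (hin ho))
  have hlow : (P.card : ℝ) * (2 * δ) ≤ 4 * M * n + 4 * M * n := by
    refine le_trans ?_ (add_le_add sA sB)
    rw [← nsmul_eq_mul, ← Finset.sum_const, ← Finset.sum_add_distrib]
    refine Finset.sum_le_sum fun p hp => ?_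
    obtain ⟨h1, h2, -, h4⟩ := hPmem p hp
    have m1 := hmargin p.1 h1 p.2 h2 (by omega)
    have m2 := hmargin p.2 h2 p.1 h1 (by omega)
    simp only [A, B] at m1 m2
    refine le_trans ?_ (add_le_add (le_abs_self _) (le_abs_self _))
    linarith
  have hcard : K.card ≤ P.card + N := by
    set L := K.filter fun o => ∃ q ∈ K, q.2 = o.2 ∧ o.1 < q.1 with hL
    have h1 : L.card ≤ P.card := by
      refine le_trans (Finset.card_le_card ?_) (Finset.card_image_le (f := Prod.fst))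
      intro o ho
      obtain ⟨hoK, q, hq, hq2, hq1⟩ := Finset.mem_filter.1 ho
      obtain ⟨q', hq', hmin⟩ := Finset.exists_min_image (K.filter fun q => q.2 = o.2 ∧ o.1 < q.1)
        (fun q => q.1) ⟨q, Finset.mem_filter.2 ⟨hq, hq2, hq1⟩⟩
      obtain ⟨hq'K, hq'2, hq'1⟩ := Finset.mem_filter.1 hq'
      refine Finset.mem_image.2 ⟨(o, q'), Finset.mem_filter.2 ⟨Finset.mem_product.2 ⟨hoK, hq'K⟩,
        hq'2.symm, hq'1, fun z hz hz2 hlt => ?_⟩, rfl⟩
      dsimp only at hlt hz2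
      have := hmin z (Finset.mem_filter.2 ⟨hz, hz2, hlt.1⟩)
      omega
    have h2 : (K \ L).card ≤ N := by
      refine le_trans (Finset.card_le_card_of_injOn (fun o => o.2) (fun o _ => Finset.mem_univ o.2)
        ?_) (le_of_eq (Finset.card_fin N))
      intro o ho q hq (hoq : o.2 = q.2)
      simp only [Finset.mem_coe, Finset.mem_sdiff, hL, Finset.mem_filter, not_and, not_exists]
        at ho hq
      refine Prod.ext ?_ hoq
      have := ho.2 ho.1 q hq.1 hoq.symm
      have := hq.2 hq.1 o ho.1 hoq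
      omega
    have h3 : (K \ L).card + L.card = K.card :=
      Finset.card_sdiff_add_card_eq_card (Finset.filter_subset _ K)
    omega
  have hcard' : (K.card : ℝ) ≤ P.card + N := by exact_mod_cast hcard
  nlinarith [mul_le_mul_of_nonneg_left hcard' hδ.le]

/-- In one configuration there are at most linearly many lines with margins. -/
theorem card_lines_le {t : Conf} {M δ : ℝ} (hM : InRange M t) {N n : ℕ} {a b : Fin N → ℝ}
    {R J : ℕ} (hab : ∀ i j, i < j → b i < a j) (O : Finset (ℕ × Fin N))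
    (hO : ∀ o ∈ O, o.1 < n ∧ ∃ γ, Line t δ (a o.2) (b o.2) R J o.1 γ) (hδ : 0 < δ) :
    δ * O.card ≤ 4 * (J + 1) * (δ * N + 4 * M * n) := by
  classical
  have hex : ∀ o : ℕ × Fin N, ∃ γ : ℤ → V, o ∈ O → Line t δ (a o.2) (b o.2) R J o.1 γ := fun o => by
    by_cases ho : o ∈ O
    · exact ⟨(hO o ho).2.choose, fun _ => (hO o ho).2.choose_spec⟩
    · exact ⟨fun _ => 0, fun h => absurd h ho⟩
  choose γ hγ using hex
  set Z := O.image Prod.fst with hZ
  set F : ℕ × Fin N → Finset ℕ := fun o =>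
    Z.filter fun y => y ≠ o.1 ∧ ∃ i : ℤ, edgeOf (γ o i) (γ o (i + 1)) = eY y with hF
  have hFJ : ∀ o ∈ O, (F o).card ≤ J := by
    intro o ho
    choose g hg using fun y : {y // y ∈ F o} => (Finset.mem_filter.1 y.2).2.2
    have hinj : Function.Injective g := fun y y' h => by
      have := hg y
      rw [h, hg y'] at this
      simp only [eY, Prod.mk.injEq, Nat.cast_inj] at this
      exact Subtype.ext this.1.2.symm
    have h := (hγ o ho).cross ((Finset.univ : Finset {y // y ∈ F o}).image g) fun i hi => by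
      obtain ⟨y, -, rfl⟩ := Finset.mem_image.1 hi
      have h1 := hg y
      have h2 := (hγ o ho).adj (g y)
      simp only [edgeOf, eY, Prod.mk.injEq, decide_eq_false_iff_not] at h1
      simp only [Adj] at h2
      refine ⟨h1.1.1, ?_⟩
      have := abs_nonneg ((γ o (g y)).2 - (γ o (g y + 1)).2)
      have := abs_le.1 (show |(γ o (g y)).1 - (γ o (g y + 1)).1| ≤ 1 by omega)
      omega
    rwa [Finset.card_image_of_injective _ hinj, Finset.card_univ, Fintype.card_coe] at h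
  set A : ℕ → ℕ → ℝ := fun y y' => ((O.filter fun o => o.1 = y ∧ y' ∈ F o).card : ℝ) with hA
  set p : ℝ := 1 / (2 * ((J : ℝ) + 1)) with hp
  have hJ : (0 : ℝ) ≤ J := Nat.cast_nonneg J
  have hp0 : 0 < p := by positivity
  obtain ⟨Z', hZ', hbd⟩ := exists_subset_quad Z A (fun y => by
      simp only [hA, Nat.cast_eq_zero, Finset.card_eq_zero, Finset.filter_eq_empty_iff]
      rintro o - ⟨h1, h2⟩
      exact (Finset.mem_filter.1 h2).2.1 h1.symm)
    hp0.le (by rw [hp, div_le_one (by positivity)]; linarith)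
    fun y => ((O.filter fun o => o.1 = y).card : ℝ)
  have hw : ∀ X : Finset ℕ, ∑ y ∈ X, ((O.filter fun o => o.1 = y).card : ℝ) =
      ∑ o ∈ O, if o.1 ∈ X then (1 : ℝ) else 0 := fun X => by
    simp only [← Finset.sum_boole]
    rw [Finset.sum_comm]
    exact Finset.sum_congr rfl fun o _ => by simp
  have hAX : ∀ X : Finset ℕ, ∑ y ∈ X, ∑ y' ∈ X, A y y' =
      ∑ o ∈ O, if o.1 ∈ X then ((X.filter fun y => y ∈ F o).card : ℝ) else 0 := fun X => by
    simp only [hA, ← Finset.sum_boole]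
    rw [Finset.sum_congr rfl fun y _ => Finset.sum_comm, Finset.sum_comm]
    refine Finset.sum_congr rfl fun o _ => ?_
    by_cases h : o.1 ∈ X
    · rw [if_pos h, Finset.sum_eq_single_of_mem o.1 h (fun y _ hy =>
        Finset.sum_eq_zero fun y' _ => by rw [if_neg]; rintro ⟨hc, -⟩; exact hy hc.symm)]
      exact Finset.sum_congr rfl fun y' _ => by simp
    · rw [if_neg h]
      exact Finset.sum_eq_zero fun y hy => Finset.sum_eq_zero fun y' _ => by
        rw [if_neg]; rintro ⟨hc, -⟩; exact h (hc ▸ hy)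
  rw [hw, hw, hAX, hAX] at hbd
  set K := O.filter fun o => o.1 ∈ Z' ∧ ∀ y ∈ Z', y ∉ F o with hK
  have h1 : (∑ o ∈ O, if o.1 ∈ Z then (1 : ℝ) else 0) = O.card := by
    rw [Finset.card_eq_sum_ones, Nat.cast_sum]
    exact Finset.sum_congr rfl fun o ho => by
      rw [if_pos (show o.1 ∈ Z from Finset.mem_image_of_mem _ ho), Nat.cast_one]
  have h2 : (∑ o ∈ O, if o.1 ∈ Z then ((Z.filter fun y => y ∈ F o).card : ℝ) else 0) ≤
      (J : ℝ) * O.card := by
    rw [mul_comm, ← nsmul_eq_mul, ← Finset.sum_const]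
    refine Finset.sum_le_sum fun o ho => ?_
    split_ifs with h
    · exact_mod_cast (Finset.card_le_card (fun y hy => (Finset.mem_filter.1 hy).2)).trans (hFJ o ho)
    · exact hJ
  have h3 : (∑ o ∈ O, if o.1 ∈ Z' then (1 : ℝ) else 0) -
      (∑ o ∈ O, if o.1 ∈ Z' then ((Z'.filter fun y => y ∈ F o).card : ℝ) else 0) ≤ K.card := by
    rw [← Finset.sum_sub_distrib, hK, ← Finset.sum_boole]
    refine Finset.sum_le_sum fun o _ => ?_
    by_cases h : o.1 ∈ Z'
    · by_cases hc : ∀ y ∈ Z', y ∉ F o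
      · rw [if_pos h, if_pos h, if_pos (And.intro h hc)]
        simp
      · simp only [h, hc, if_true, and_false, if_false]
        push Not at hc
        obtain ⟨y, hy, hy'⟩ := hc
        have : (1 : ℝ) ≤ (Z'.filter fun y => y ∈ F o).card := by
          exact_mod_cast Finset.card_pos.2 ⟨y, Finset.mem_filter.2 ⟨hy, hy'⟩⟩
        linarith
    · simp [h]
  have hsel : (O.card : ℝ) ≤ 4 * ((J : ℝ) + 1) * K.card := by
    have hO0 : (0 : ℝ) ≤ O.card := Nat.cast_nonneg _
    rw [h1] at hbd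
    have h4 := mul_le_mul_of_nonneg_left h2 (sq_nonneg p)
    have h5 : p * (J : ℝ) ≤ 1 / 2 := by
      rw [hp, div_mul_eq_mul_div, div_le_iff₀ (by positivity)]
      linarith
    have h6 : p * O.card / 2 ≤ K.card := by
      nlinarith [mul_le_mul_of_nonneg_right h5 (mul_nonneg hp0.le hO0)]
    have h7 : p * (2 * ((J : ℝ) + 1)) = 1 := by rw [hp]; field_simp
    nlinarith [mul_le_mul_of_nonneg_left h6 (show (0 : ℝ) ≤ 4 * ((J : ℝ) + 1) by positivity)]
  have hfree := card_free_le hM hab K (fun o ho => (hO o (Finset.mem_filter.1 ho).1).1) hδ γ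
    (fun o ho => hγ o (Finset.mem_filter.1 ho).1) (by
      intro o ho q hq hqo i he
      obtain ⟨-, -, hav⟩ := Finset.mem_filter.1 ho
      obtain ⟨hqO, hqZ, -⟩ := Finset.mem_filter.1 hq
      exact hav q.1 hqZ (Finset.mem_filter.2 ⟨Finset.mem_image_of_mem _ hqO, hqo, i, he⟩))
  calc δ * O.card ≤ δ * (4 * ((J : ℝ) + 1) * K.card) := mul_le_mul_of_nonneg_left hsel hδ.le
    _ = 4 * ((J : ℝ) + 1) * (δ * K.card) := by ring
    _ ≤ 4 * ((J : ℝ) + 1) * (δ * N + 4 * M * n) :=
        mul_le_mul_of_nonneg_left hfree (by positivity)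

end Vale.Agent.P158.Units
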