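import Vale.Agent.P158.Units.Side

/-!
The deterministic count: in one configuration there are at most linearly many lines with margins.
-/

open MeasureTheory Filter Topology

namespace Vale.Agent.P158.Units

theorem Ico_one (k : ℤ) : Finset.Ico k (k + 1) = {k} := by
  ext z
  simp only [Finset.mem_Ico, Finset.mem_singleton]
  omega

/-- The horizontal edge entering height `y` of the column `0`. -/
def eY (y : ℤ) : Edge := ((-1, y), false)

/-- A line with margin through the entrance edge at height `y`. -/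
structure Line (t : Conf) (δ a b : ℝ) (R J : ℕ) (y : ℤ) (γ : ℤ → V) : Prop where
  start : γ 0 = (0, y)
  before : γ (-1) = (-1, y)
  inj : Function.Injective γ
  adj : ∀ i : ℤ, Adj (γ i) (γ (i + 1))
  geo : ∀ i j : ℤ, i < j → ∀ p : grid.Walk (γ i) (γ j), seg t γ i j ≤ plen t p
  gap : ∀ n m : ℕ, ∀ p : grid.Walk (γ (-((n : ℤ) + 1))) (γ m),
    (∀ d ∈ p.darts, edgeOf d.toProd.1 d.toProd.2 ≠ eY y) →
    seg t γ (-((n : ℤ) + 1)) m + δ ≤ plen t p
  fwdCone : ∀ n : ℕ, R ≤ n → 0 < (γ n).1 ∧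
    a * (γ n).1 ≤ (((γ n).2 - y : ℤ) : ℝ) ∧ (((γ n).2 - y : ℤ) : ℝ) ≤ b * (γ n).1
  bwdCone : ∀ n : ℕ, R ≤ n → (γ (-(n : ℤ))).1 < 0 ∧
    a * (-((γ (-(n : ℤ))).1 : ℝ)) ≤ -(((γ (-(n : ℤ))).2 - y : ℤ) : ℝ) ∧
    -(((γ (-(n : ℤ))).2 - y : ℤ) : ℝ) ≤ b * (-((γ (-(n : ℤ))).1 : ℝ))
  left : ∀ i : ℤ, i < 0 → (γ i).1 < 0
  cross : ∀ F : Finset ℤ,
    (∀ i ∈ F, min (γ i).1 (γ (i + 1)).1 = -1 ∧ max (γ i).1 (γ (i + 1)).1 = 0) → F.card ≤ J

/-- Translation as a homomorphism of the lattice. -/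
def transHom (v : V) : grid →g grid where
  toFun z := z + v
  map_rel' {x z} h := by
    change Adj (x + v) (z + v)
    change Adj x z at h
    simpa [Adj] using h

theorem edgeOf_add (x z v : V) : edgeOf (x + v) (z + v) = eShift v (edgeOf x z) := by
  simp [edgeOf, eShift, min_add_add_right, Prod.ext_iff]

theorem plen_trans (t : Conf) (v : V) {x z : V} (p : grid.Walk x z) :
    plen t (p.map (transHom v)) = plen (shift v t) p := by
  induction p with
  | nil => rfl
  | @cons a b c hab q ih =>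
    rw [SimpleGraph.Walk.map_cons, plen_cons, plen_cons, ih]
    congr 1
    exact congrArg t (edgeOf_add a b v)

/-- A shifted event gives a line at height `y`. -/
theorem line_of_shift {M δ a b : ℝ} {R J : ℕ} {t : Conf} {y : ℤ}
    (h : shift (0, y) t ∈ objEvent M δ a b R J) : ∃ γ, Line t δ a b R J y γ := by
  obtain ⟨-, γ, hγ⟩ := h
  set v : V := (0, y) with hv
  have hneg : ∀ i, (transHom (-v)) (γ i + v) = γ i := fun i => add_neg_cancel_right (γ i) v
  have hseg : ∀ i j, seg t (fun k => γ k + v) i j = seg (shift v t) γ i j := fun i j => by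
    refine Finset.sum_congr rfl fun k _ => ?_
    exact congrArg t (edgeOf_add _ _ v)
  have hpull : ∀ i j (p : grid.Walk (γ i + v) (γ j + v)),
      plen (shift v t) ((p.map (transHom (-v))).copy (hneg i) (hneg j)) = plen t p := by
    intro i j p
    rw [plen_copy, plen_trans (shift v t) (-v) p]
    refine congrArg (fun s => plen s p) (funext fun e => ?_)
    simp [shift, eShift]
  refine ⟨fun k => γ k + v, ?_, ?_, ?_, ?_, ?_, ?_, ?_, ?_, ?_, ?_⟩
  · simp [(hγ 0).start, hv]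
  · simp [(hγ 0).before, hv]
  · intro i j hij
    exact (hγ (i.natAbs + j.natAbs)).inj i j (by omega) (by omega) (add_right_cancel hij)
  · intro i
    have := (hγ (i.natAbs + 1)).adj i (by omega) (by omega)
    simpa [Adj] using this
  · intro i j hij p
    rw [hseg, ← hpull i j p]
    exact (hγ (i.natAbs + j.natAbs)).geo i j (by omega) (by omega) hij _
  · intro n m p hp
    rw [hseg, ← hpull _ _ p]
    refine (hγ (n + m + 1)).gap n m (by omega) (by omega) _ fun d hd => ?_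
    rw [SimpleGraph.Walk.darts_copy, SimpleGraph.Walk.darts_map, List.mem_map] at hd
    obtain ⟨d', hd', rfl⟩ := hd
    intro he
    refine hp d' hd' ?_
    have he' : edgeOf (d'.toProd.1 + -v) (d'.toProd.2 + -v) = e0 := he
    rw [edgeOf_add] at he'
    have h2 := congrArg (eShift v) he'
    simpa [eShift, e0, eY, hv, add_assoc, Prod.ext_iff] using h2
  · intro n hn
    have := (hγ n).fwdCone n (by omega) hn
    simpa [hv] using this
  · intro n hn
    have := (hγ n).bwdCone n (by omega) hn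
    simpa [hv] using this
  · intro i hi
    have := (hγ i.natAbs).left i (by omega) hi
    simpa [hv] using this
  · intro F hF
    refine (hγ (F.sup Int.natAbs)).cross F fun i hi => ⟨Finset.le_sup hi, ?_⟩
    simpa [hv] using hF i hi

theorem seg_succ_right (t : Conf) (γ : ℤ → V) (n : ℕ) :
    seg t γ 0 n = rlen t (fun k => γ k) n := by
  induction n with
  | zero => simp [seg, rlen]
  | succ n ih =>
    rw [Nat.cast_succ, seg_add t γ (show (0 : ℤ) ≤ n by omega) (show (n : ℤ) ≤ n + 1 by omega), ih]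
    simp [rlen, seg, Finset.sum_range_succ, Ico_one]

theorem seg_succ_left (t : Conf) (γ : ℤ → V) (n : ℕ) :
    seg t γ (-((n : ℤ) + 1)) (-1) = rlen t (fun k => γ (-((k : ℤ) + 1))) n := by
  induction n with
  | zero => simp [seg, rlen]
  | succ n ih =>
    rw [seg_add t γ (show -((n.succ : ℕ) + 1 : ℤ) ≤ -((n : ℤ) + 1) by push_cast; omega)
      (show -((n : ℤ) + 1) ≤ -1 by omega), ih]
    simp only [rlen, Finset.sum_range_succ]
    push_cast
    rw [add_comm]
    congr 1
    rw [seg, show -((n : ℤ) + 1) = -((n : ℤ) + 1 + 1) + 1 by ring, Ico_one, Finset.sum_singleton]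
    simp only [wt]
    rw [edgeOf_comm]

theorem walk_col {S : Set Edge} (hS : ∀ e : Edge, e.2 = true → e ∈ S) (c i j : ℤ) :
    ∃ W : grid.Walk ((c, i) : V) (c, j), WalkIn S W := by
  have key : ∀ (n : ℕ) (i : ℤ), ∃ W : grid.Walk ((c, i) : V) (c, i + n), WalkIn S W := by
    intro n
    induction n with
    | zero => intro i; exact ⟨(SimpleGraph.Walk.nil).copy rfl (by simp), by simp [WalkIn]⟩
    | succ n ih =>
      intro i
      obtain ⟨W, hW⟩ := ih i
      have hadj : grid.Adj ((c, i + n) : V) (c, i + (n + 1 : ℕ)) := by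
        show Adj _ _
        simp [Adj]
      refine ⟨W.concat hadj, fun d hd => ?_⟩
      rw [SimpleGraph.Walk.darts_concat, List.concat_eq_append, List.mem_append] at hd
      rcases hd with hd | hd
      · exact hW d hd
      · rw [List.mem_singleton] at hd; subst hd
        exact hS _ (by simp [edgeOf])
  rcases le_total i j with h | h
  · obtain ⟨n, hn⟩ := Int.le.dest h
    obtain ⟨W, hW⟩ := key n i
    exact ⟨W.copy rfl (by rw [hn]), by intro d hd; rw [SimpleGraph.Walk.darts_copy] at hd; exact hW d hd⟩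
  · obtain ⟨n, hn⟩ := Int.le.dest h
    obtain ⟨W, hW⟩ := key n j
    exact ⟨(W.copy rfl (by rw [hn])).reverse,
      walkIn_reverse (by intro d hd; rw [SimpleGraph.Walk.darts_copy] at hd; exact hW d hd)⟩

/-- Intervals in `[-B, B]` covering each point at most twice have total length at most `4 B`. -/
theorem sum_length_le {ι : Type*} (P : Finset ι) (l u : ι → ℝ) {B : ℝ} (hB : 0 ≤ B)
    (hl : ∀ p ∈ P, -B ≤ l p) (hu : ∀ p ∈ P, u p ≤ B) (hlu : ∀ p ∈ P, l p ≤ u p)
    (h : ∀ s : ℝ, (P.filter fun p => l p < s ∧ s < u p).card ≤ 2) :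
    ∑ p ∈ P, (u p - l p) ≤ 4 * B := by
  have h1 : ∫⁻ s : ℝ, ∑ p ∈ P, (Set.Ioo (l p) (u p)).indicator 1 s ≤
      ∫⁻ s : ℝ, (Set.Ioo (-B) B).indicator (fun _ => (2 : ENNReal)) s := by
    refine lintegral_mono fun s => ?_
    by_cases hs : s ∈ Set.Ioo (-B) B
    · rw [Set.indicator_of_mem hs]
      calc ∑ p ∈ P, (Set.Ioo (l p) (u p)).indicator (1 : ℝ → ENNReal) s
          = ((P.filter fun p => l p < s ∧ s < u p).card : ENNReal) := by
            rw [← Finset.sum_boole]
            exact Finset.sum_congr rfl fun p _ => by simp [Set.indicator_apply]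
        _ ≤ 2 := by exact_mod_cast h s
    · rw [Set.indicator_of_notMem hs, nonpos_iff_eq_zero, Finset.sum_eq_zero_iff]
      intro p hp
      rw [Set.indicator_of_notMem]
      exact fun hsp => hs ⟨lt_of_le_of_lt (hl p hp) hsp.1, lt_of_lt_of_le hsp.2 (hu p hp)⟩
  rw [lintegral_finsetSum _ fun p _ => measurable_one.indicator measurableSet_Ioo,
    lintegral_indicator_const measurableSet_Ioo] at h1
  simp only [lintegral_indicator_one measurableSet_Ioo, Real.volume_Ioo] at h1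
  rw [← ENNReal.ofReal_sum_of_nonneg (fun p hp => sub_nonneg.2 (hlu p hp)),
    show (2 : ENNReal) = ENNReal.ofReal 2 by simp, ← ENNReal.ofReal_mul (by norm_num),
    ENNReal.ofReal_le_ofReal_iff (by linarith)] at h1
  linarith

theorem abs_sub_le_sum (f : ℤ → ℝ) {i j : ℤ} (h : i ≤ j) :
    |f j - f i| ≤ ∑ u ∈ Finset.Ico i j, |f (u + 1) - f u| := by
  obtain ⟨n, rfl⟩ := Int.le.dest h
  induction n with
  | zero => simp
  | succ n ih =>
    have h2 := ih (by omega)
    rw [Nat.cast_succ, ← add_assoc,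
      ← Finset.Ico_union_Ico_eq_Ico (show i ≤ i + (n : ℤ) by omega)
        (show i + (n : ℤ) ≤ i + (n : ℤ) + 1 by omega),
      Finset.sum_union (Finset.Ico_disjoint_Ico_consecutive _ _ _), Ico_one, Finset.sum_singleton]
    have := abs_sub_le (f (i + n + 1)) (f (i + n)) (f i)
    linarith

section
variable {t : Conf} {M : ℝ} {N : ℕ} {a b : Fin N → ℝ} {R : Fin N → ℕ}

/-- One side: the increments of potential differences over consecutive pairs. -/
theorem side_sum_le (hM : InRange M t) {σ : ℤ} (hσ : σ = 1 ∨ σ = -1) (hmeet : SideMeet σ)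
    (hab : ∀ i j, i < j → b i < a j) {S : Set Edge} (hS : ∀ e : Edge, e.2 = true → e ∈ S)
    (col : ℤ) {n : ℕ} (P : Finset ((ℕ × Fin N) × (ℕ × Fin N)))
    (hP : ∀ p ∈ P, p.1.1 ≤ p.2.1 ∧ p.2.1 < n ∧ p.1.2 = p.2.2)
    (huniq : ∀ u : ℕ, ∀ p ∈ P, ∀ q ∈ P, p.1.1 ≤ u → u < p.2.1 → q.1.1 ≤ u → u < q.2.1 →
      p.1.2 = q.1.2 → p = q)
    (r : ℕ × Fin N → ℕ → V) (hr0 : ∀ o, (∃ p ∈ P, o = p.1 ∨ o = p.2) → r o 0 = (col, (o.1 : ℤ)))
    (htail : ∀ o, (∃ p ∈ P, o = p.1 ∨ o = p.2) →
      Tail t S σ o.1 (a o.2) (b o.2) (R o.2) (r o)) :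
    ∑ p ∈ P, |(pot t S (r p.1) (col, (p.2.1 : ℤ)) - pot t S (r p.2) (col, (p.2.1 : ℤ))) -
      (pot t S (r p.1) (col, (p.1.1 : ℤ)) - pot t S (r p.2) (col, (p.1.1 : ℤ)))| ≤
      4 * M * n := by
  classical
  set D : ℕ × Fin N → ℕ → ℝ := fun o u =>
    pot t S (r o) (col, (u : ℤ) + 1) - pot t S (r o) (col, (u : ℤ)) with hD
  have hM0 : 0 ≤ M := le_trans (hM e0).1 (hM e0).2
  have hconn : ∀ o, (∃ p ∈ P, o = p.1 ∨ o = p.2) → ∀ u : ℤ,
      ∃ C : grid.Walk ((col, u) : V) (r o 0), WalkIn S C := fun o ho u => by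
    obtain ⟨W, hW⟩ := walk_col hS col u o.1
    exact ⟨W.copy rfl (hr0 o ho).symm,
      by intro d hd; rw [SimpleGraph.Walk.darts_copy] at hd; exact hW d hd⟩
  have hDb : ∀ o, (∃ p ∈ P, o = p.1 ∨ o = p.2) → ∀ u : ℕ, |D o u| ≤ M := by
    intro o ho u
    have hadj : Adj ((col, (u : ℤ)) : V) (col, (u : ℤ) + 1) := by simp [Adj]
    have hadj' : Adj ((col, (u : ℤ) + 1) : V) (col, (u : ℤ)) := by simp [Adj]
    have hmem : edgeOf ((col, (u : ℤ)) : V) (col, (u : ℤ) + 1) ∈ S := hS _ (by simp [edgeOf])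
    obtain ⟨C, hC⟩ := hconn o ho u
    obtain ⟨C', hC'⟩ := hconn o ho ((u : ℤ) + 1)
    have h1 := (htail o ho).pot_step C hC hadj hmem
    have h2 := (htail o ho).pot_step C' hC' hadj' (by rw [edgeOf_comm]; exact hmem)
    have h3 : wt t ((col, (u : ℤ)) : V) (col, (u : ℤ) + 1) ≤ M := (hM _).2
    have h4 : wt t ((col, (u : ℤ) + 1) : V) (col, (u : ℤ)) ≤ M := (hM _).2
    rw [abs_le]
    constructor <;> simp only [hD] <;> linarith
  have hedge : ∀ u : ℕ, ∑ p ∈ P.filter (fun p => p.1.1 ≤ u ∧ u < p.2.1), |D p.1 u - D p.2 u| ≤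
      4 * M := by
    intro u
    set Q := P.filter (fun p => p.1.1 ≤ u ∧ u < p.2.1) with hQ
    have hmem : ∀ p ∈ Q, (∃ q ∈ P, p.1 = q.1 ∨ p.1 = q.2) ∧ (∃ q ∈ P, p.2 = q.1 ∨ p.2 = q.2) :=
      fun p hp => ⟨⟨p, (Finset.mem_filter.1 hp).1, Or.inl rfl⟩,
        ⟨p, (Finset.mem_filter.1 hp).1, Or.inr rfl⟩⟩
    have hlen : ∀ p : (ℕ × Fin N) × (ℕ × Fin N),
        |D p.1 u - D p.2 u| = max (D p.1 u) (D p.2 u) - min (D p.1 u) (D p.2 u) :=
      fun p => (max_sub_min_eq_abs' _ _).symm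
    simp only [hlen]
    refine sum_length_le Q _ _ hM0 (fun p hp => le_min ?_ ?_) (fun p hp => max_le ?_ ?_)
      (fun p _ => min_le_max) fun s => ?_
    · exact (abs_le.1 (hDb _ (hmem p hp).1 u)).1
    · exact (abs_le.1 (hDb _ (hmem p hp).2 u)).1
    · exact (abs_le.1 (hDb _ (hmem p hp).1 u)).2
    · exact (abs_le.1 (hDb _ (hmem p hp).2 u)).2
    by_contra hcard
    set Qs := Q.filter fun p => min (D p.1 u) (D p.2 u) < s ∧ s < max (D p.1 u) (D p.2 u) with hQs
    have hinj : Set.InjOn (fun p : (ℕ × Fin N) × (ℕ × Fin N) => p.1.2) Qs := by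
      intro p hp q hq he
      obtain ⟨hp1, hp2, hp3⟩ := Finset.mem_filter.1 (Finset.mem_filter.1 hp).1
      obtain ⟨hq1, hq2, hq3⟩ := Finset.mem_filter.1 (Finset.mem_filter.1 hq).1
      exact huniq u p hp1 q hq1 hp2 hp3 hq2 hq3 he
    have h3 : 3 ≤ (Qs.image fun p => p.1.2).card := by
      rw [Finset.card_image_of_injOn hinj]; omega
    obtain ⟨U, hU, hUc⟩ := Finset.exists_subset_card_eq h3
    set emb := U.orderEmbOfFin hUc with hemb
    have hpick : ∀ i : Fin 3, ∃ p ∈ Qs, p.1.2 = emb i := fun i =>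
      Finset.mem_image.1 (hU (Finset.orderEmbOfFin_mem U hUc i))
    choose p hpQ hpe using hpick
    have hpP : ∀ i, p i ∈ P := fun i =>
      (Finset.mem_filter.1 (Finset.mem_filter.1 (hpQ i)).1).1
    set lo : Fin 3 → ℕ × Fin N := fun i =>
      if D (p i).1 u ≤ D (p i).2 u then (p i).1 else (p i).2 with hlo
    set hi : Fin 3 → ℕ × Fin N := fun i =>
      if D (p i).1 u ≤ D (p i).2 u then (p i).2 else (p i).1 with hhi
    have hin : ∀ i, (∃ q ∈ P, lo i = q.1 ∨ lo i = q.2) ∧ (∃ q ∈ P, hi i = q.1 ∨ hi i = q.2) ∧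
        (lo i).2 = emb i ∧ (hi i).2 = emb i ∧ D (lo i) u < s ∧ s < D (hi i) u := by
      intro i
      have hs := (Finset.mem_filter.1 (hpQ i)).2
      have hunit := (hP _ (hpP i)).2.2
      simp only [hlo, hhi]
      split_ifs with hc
      · rw [min_eq_left hc, max_eq_right hc] at hs
        exact ⟨⟨_, hpP i, Or.inl rfl⟩, ⟨_, hpP i, Or.inr rfl⟩, hpe i, hunit ▸ hpe i, hs⟩
      · rw [min_eq_right (le_of_not_ge hc), max_eq_left (le_of_not_ge hc)] at hs
        exact ⟨⟨_, hpP i, Or.inr rfl⟩, ⟨_, hpP i, Or.inl rfl⟩, hunit ▸ hpe i, hpe i, hs⟩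
    refine no_three_straddle (t := t) (S := S) hmeet hσ
      (yl := fun i => ((lo i).1 : ℤ)) (yh := fun i => ((hi i).1 : ℤ))
      (a := fun i => a (emb i)) (b := fun i => b (emb i))
      (Rl := fun i => R (lo i).2) (Rh := fun i => R (hi i).2)
      (rl := fun i => r (lo i)) (rh := fun i => r (hi i))
      (fun i => by rw [← (hin i).2.2.1]; exact htail _ (hin i).1)
      (fun i => by rw [← (hin i).2.2.2.1]; exact htail _ (hin i).2.1)
      (hab _ _ (emb.strictMono (by decide))) (hab _ _ (emb.strictMono (by decide)))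
      (u := (col, (u : ℤ))) (w := (col, (u : ℤ) + 1))
      (fun i z hz => by
        rcases hz with rfl | rfl <;>
          exact ⟨hconn _ (hin i).1 _, hconn _ (hin i).2.1 _⟩)
      fun i j => ?_
    have h1 := (hin i).2.2.2.2.1
    have h2 := (hin j).2.2.2.2.2
    simp only [hD] at h1 h2
    linarith
  calc ∑ p ∈ P, |(pot t S (r p.1) (col, (p.2.1 : ℤ)) - pot t S (r p.2) (col, (p.2.1 : ℤ))) -
      (pot t S (r p.1) (col, (p.1.1 : ℤ)) - pot t S (r p.2) (col, (p.1.1 : ℤ)))|
      ≤ ∑ p ∈ P, ∑ u ∈ Finset.range n, if p.1.1 ≤ u ∧ u < p.2.1 then |D p.1 u - D p.2 u| else 0 := by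
        refine Finset.sum_le_sum fun p hp => ?_
        obtain ⟨hle, hlt, -⟩ := hP p hp
        rw [← Finset.sum_filter]
        have hset : (Finset.range n).filter (fun u => p.1.1 ≤ u ∧ u < p.2.1) =
            Finset.Ico p.1.1 p.2.1 := by
          ext u; simp only [Finset.mem_filter, Finset.mem_range, Finset.mem_Ico]; omega
        rw [hset]
        refine (abs_sub_le_sum (fun z => pot t S (r p.1) (col, z) - pot t S (r p.2) (col, z))
          (show (p.1.1 : ℤ) ≤ p.2.1 by exact_mod_cast hle)).trans (le_of_eq ?_)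
        rw [show Finset.Ico (p.1.1 : ℤ) p.2.1 = (Finset.Ico p.1.1 p.2.1).image Nat.cast by
          ext z
          simp only [Finset.mem_Ico, Finset.mem_image]
          exact ⟨fun hz => ⟨z.toNat, by omega, by omega⟩, by rintro ⟨k, hk, rfl⟩; omega⟩,
          Finset.sum_image (fun x _ z _ h => by exact_mod_cast h)]
        refine Finset.sum_congr rfl fun u _ => ?_
        simp only [hD]
        congr 1
        ring
    _ = ∑ u ∈ Finset.range n, ∑ p ∈ P.filter (fun p => p.1.1 ≤ u ∧ u < p.2.1),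
          |D p.1 u - D p.2 u| := by
        rw [Finset.sum_comm]
        exact Finset.sum_congr rfl fun u _ => (Finset.sum_filter _ _).symm
    _ ≤ ∑ u ∈ Finset.range n, 4 * M := Finset.sum_le_sum fun u _ => hedge u
    _ = 4 * M * n := by rw [Finset.sum_const, Finset.card_range, nsmul_eq_mul]; ring

end
end Vale.Agent.P158.Units
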