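import Vale.Agent.P158.Spec

/-!
The events counted in the unit bound: a line through the entrance edge at the origin which beats
every competitor avoiding that edge by a margin. They are measurable by a compactness argument.
-/

open MeasureTheory Filter Topology

namespace Vale.Agent.P158.Units

/-- The entrance edge at the origin. -/
def e0 : Edge := ((-1, 0), false)

/-- The weight of the part of a doubly infinite path between two indices. -/
noncomputable def seg (t : Conf) (γ : ℤ → V) (i j : ℤ) : ℝ :=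
  ∑ k ∈ Finset.Ico i j, wt t (γ k) (γ (k + 1))

/-- Geodesic through the entrance edge with margin `δ`, cut off at radius `K`. -/
structure ObjAt (δ a b : ℝ) (R J : ℕ) (K : ℕ) (t : Conf) (γ : ℤ → V) : Prop where
  start : γ 0 = (0, 0)
  before : γ (-1) = (-1, 0)
  inj : ∀ i j : ℤ, i.natAbs ≤ K + 1 → j.natAbs ≤ K + 1 → γ i = γ j → i = j
  adj : ∀ i : ℤ, i.natAbs ≤ K + 1 → (i + 1).natAbs ≤ K + 1 → Adj (γ i) (γ (i + 1))
  geo : ∀ i j : ℤ, i.natAbs ≤ K + 1 → j.natAbs ≤ K + 1 → i < j →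
    ∀ p : grid.Walk (γ i) (γ j), seg t γ i j ≤ plen t p
  gap : ∀ n m : ℕ, n + 1 ≤ K + 1 → m ≤ K + 1 → ∀ p : grid.Walk (γ (-((n : ℤ) + 1))) (γ m),
    (∀ d ∈ p.darts, edgeOf d.toProd.1 d.toProd.2 ≠ e0) →
    seg t γ (-((n : ℤ) + 1)) m + δ ≤ plen t p
  fwdCone : ∀ n : ℕ, n ≤ K + 1 → R ≤ n → 0 < (γ n).1 ∧
    a * (γ n).1 ≤ ((γ n).2 : ℝ) ∧ ((γ n).2 : ℝ) ≤ b * (γ n).1
  bwdCone : ∀ n : ℕ, n ≤ K + 1 → R ≤ n → (γ (-(n : ℤ))).1 < 0 ∧
    a * (-((γ (-(n : ℤ))).1 : ℝ)) ≤ -((γ (-(n : ℤ))).2 : ℝ) ∧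
    -((γ (-(n : ℤ))).2 : ℝ) ≤ b * (-((γ (-(n : ℤ))).1 : ℝ))
  left : ∀ i : ℤ, i.natAbs ≤ K + 1 → i < 0 → (γ i).1 < 0
  cross : ∀ F : Finset ℤ,
    (∀ i ∈ F, i.natAbs ≤ K ∧
      min (γ i).1 (γ (i + 1)).1 = -1 ∧ max (γ i).1 (γ (i + 1)).1 = 0) → F.card ≤ J

/-- The configurations with a line through the entrance edge having margin `δ`. -/
def objEvent (M δ a b : ℝ) (R J : ℕ) : Set Conf :=
  {t | InRange M t ∧ ∃ γ, ∀ K, ObjAt δ a b R J K t γ}

theorem measurable_plen {x y : V} (p : grid.Walk x y) : Measurable fun t : Conf => plen t p := by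
  induction p with
  | nil => exact measurable_const (a := (0 : ℝ))
  | cons h p ih =>
    exact (measurable_pi_apply _).add ih

theorem measurable_seg (γ : ℤ → V) (i j : ℤ) : Measurable fun t : Conf => seg t γ i j :=
  Finset.measurable_sum _ fun _ _ => measurable_pi_apply _

instance countable_walk (x y : V) : Countable (grid.Walk x y) :=
  Function.Injective.countable (f := fun p : grid.Walk x y => p.support)
    fun _ _ h => SimpleGraph.Walk.ext_support h

theorem measurableSet_const_prop (p : Prop) : MeasurableSet {_t : Conf | p} := by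
  by_cases h : p <;> simp [h]

theorem measurableSet_inRange (M : ℝ) : MeasurableSet {t : Conf | InRange M t} := by
  simp only [InRange, Set.setOf_forall]
  exact MeasurableSet.iInter fun e => measurable_pi_apply e measurableSet_Icc

theorem measurableSet_objAt (δ a b : ℝ) (R J K : ℕ) (γ : ℤ → V) :
    MeasurableSet {t | ObjAt δ a b R J K t γ} := by
  have h : {t : Conf | ObjAt δ a b R J K t γ} =
      {_t : Conf | (γ 0 = (0, 0) ∧ γ (-1) = (-1, 0)) ∧
        (∀ i j : ℤ, i.natAbs ≤ K + 1 → j.natAbs ≤ K + 1 → γ i = γ j → i = j) ∧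
        (∀ i : ℤ, i.natAbs ≤ K + 1 → (i + 1).natAbs ≤ K + 1 → Adj (γ i) (γ (i + 1))) ∧
        (∀ n : ℕ, n ≤ K + 1 → R ≤ n → 0 < (γ n).1 ∧
          a * (γ n).1 ≤ ((γ n).2 : ℝ) ∧ ((γ n).2 : ℝ) ≤ b * (γ n).1) ∧
        (∀ n : ℕ, n ≤ K + 1 → R ≤ n → (γ (-(n : ℤ))).1 < 0 ∧
          a * (-((γ (-(n : ℤ))).1 : ℝ)) ≤ -((γ (-(n : ℤ))).2 : ℝ) ∧
          -((γ (-(n : ℤ))).2 : ℝ) ≤ b * (-((γ (-(n : ℤ))).1 : ℝ))) ∧
        (∀ i : ℤ, i.natAbs ≤ K + 1 → i < 0 → (γ i).1 < 0) ∧
        (∀ F : Finset ℤ, (∀ i ∈ F, i.natAbs ≤ K ∧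
          min (γ i).1 (γ (i + 1)).1 = -1 ∧ max (γ i).1 (γ (i + 1)).1 = 0) → F.card ≤ J)} ∩
      ((⋂ (i : ℤ) (j : ℤ) (_ : i.natAbs ≤ K + 1) (_ : j.natAbs ≤ K + 1) (_ : i < j)
          (p : grid.Walk (γ i) (γ j)), {t | seg t γ i j ≤ plen t p}) ∩
        ⋂ (n : ℕ) (m : ℕ) (_ : n + 1 ≤ K + 1) (_ : m ≤ K + 1)
          (p : grid.Walk (γ (-((n : ℤ) + 1))) (γ m))
          (_ : ∀ d ∈ p.darts, edgeOf d.toProd.1 d.toProd.2 ≠ e0),
          {t | seg t γ (-((n : ℤ) + 1)) m + δ ≤ plen t p}) := by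
    ext t
    simp only [Set.mem_inter_iff, Set.mem_setOf_eq, Set.mem_iInter]
    constructor
    · intro h
      exact ⟨⟨⟨h.start, h.before⟩, h.inj, h.adj, h.fwdCone, h.bwdCone, h.left, h.cross⟩,
        h.geo, h.gap⟩
    · rintro ⟨⟨⟨h1, h2⟩, h3, h4, h5, h6, h7, h8⟩, h9, h10⟩
      exact ⟨h1, h2, h3, h4, h9, h10, h5, h6, h7, h8⟩
  rw [h]
  refine (measurableSet_const_prop _).inter (.inter ?_ ?_)
  · exact .iInter fun i => .iInter fun j => .iInter fun _ => .iInter fun _ => .iInter fun _ =>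
      .iInter fun p => measurableSet_le (measurable_seg γ i j) (measurable_plen p)
  · exact .iInter fun n => .iInter fun m => .iInter fun _ => .iInter fun _ => .iInter fun p =>
      .iInter fun _ => measurableSet_le ((measurable_seg γ _ _).add_const δ) (measurable_plen p)

theorem seg_congr (t : Conf) {γ γ' : ℤ → V} {i j : ℤ}
    (h : ∀ k, i ≤ k → k ≤ j → γ k = γ' k) : seg t γ i j = seg t γ' i j := by
  refine Finset.sum_congr rfl fun k hk => ?_
  have hk' := Finset.mem_Ico.1 hk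
  rw [h k hk'.1 (by omega), h (k + 1) (by omega) (by omega)]

theorem plen_copy (t : Conf) {x y x' y' : V} (p : grid.Walk x y) (hx : x = x') (hy : y = y') :
    plen t (p.copy hx hy) = plen t p := by subst hx hy; rfl

theorem objAt_mono {δ a b : ℝ} {R J K K' : ℕ} {t : Conf} {γ : ℤ → V} (hK : K ≤ K')
    (h : ObjAt δ a b R J K' t γ) : ObjAt δ a b R J K t γ where
  start := h.start
  before := h.before
  inj i j hi hj := h.inj i j (by omega) (by omega)
  adj i hi hj := h.adj i (by omega) (by omega)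
  geo i j hi hj := h.geo i j (by omega) (by omega)
  gap n m hn hm := h.gap n m (by omega) (by omega)
  fwdCone n hn := h.fwdCone n (by omega)
  bwdCone n hn := h.bwdCone n (by omega)
  left i hi := h.left i (by omega)
  cross F hF := h.cross F fun i hi => ⟨by have := (hF i hi).1; omega, (hF i hi).2⟩

theorem objAt_congr {δ a b : ℝ} {R J K : ℕ} {t : Conf} {γ γ' : ℤ → V}
    (e : ∀ i : ℤ, i.natAbs ≤ K + 1 → γ' i = γ i) (h : ObjAt δ a b R J K t γ) :
    ObjAt δ a b R J K t γ' where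
  start := by rw [e 0 (by simp)]; exact h.start
  before := by rw [e (-1) (by simp)]; exact h.before
  inj i j hi hj hij := h.inj i j hi hj (by rwa [e i hi, e j hj] at hij)
  adj i hi hj := by rw [e i hi, e _ hj]; exact h.adj i hi hj
  geo i j hi hj hij p := by
    rw [← plen_copy t p (e i hi) (e j hj), seg_congr t fun k h1 h2 => e k (by omega)]
    exact h.geo i j hi hj hij _
  gap n m hn hm p hp := by
    rw [← plen_copy t p (e _ (by omega)) (e m (by omega)),
      seg_congr t fun k h1 h2 => e k (by omega)]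
    exact h.gap n m hn hm _ (by rw [SimpleGraph.Walk.darts_copy]; exact hp)
  fwdCone n hn := by rw [e n (by omega)]; exact h.fwdCone n hn
  bwdCone n hn := by rw [e (-(n : ℤ)) (by omega)]; exact h.bwdCone n hn
  left i hi := by rw [e i hi]; exact h.left i hi
  cross F hF := h.cross F fun i hi => by
    have := hF i hi
    rw [e i (by omega), e (i + 1) (by omega)] at this
    exact this

theorem objAt_bound {δ a b : ℝ} {R J K : ℕ} {t : Conf} {γ : ℤ → V}
    (h : ObjAt δ a b R J K t γ) (i : ℤ) (hi : i.natAbs ≤ K + 1) :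
    (γ i).1.natAbs ≤ i.natAbs ∧ (γ i).2.natAbs ≤ i.natAbs := by
  have key : ∀ n : ℕ, n ≤ K + 1 →
      ((γ n).1.natAbs ≤ n ∧ (γ n).2.natAbs ≤ n) ∧
      ((γ (-(n : ℤ))).1.natAbs ≤ n ∧ (γ (-(n : ℤ))).2.natAbs ≤ n) := by
    intro n
    induction n with
    | zero => intro _; simp [h.start]
    | succ n ih =>
      intro hn
      obtain ⟨⟨h1, h2⟩, h3, h4⟩ := ih (by omega)
      have ha := h.adj n (by omega) (by omega)
      have hb := h.adj (-((n : ℤ) + 1)) (by omega) (by omega)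
      rw [show -((n : ℤ) + 1) + 1 = -(n : ℤ) by ring] at hb
      simp only [Adj] at ha hb
      push_cast
      have e1 := abs_nonneg ((γ n).1 - (γ (n + 1)).1)
      have e2 := abs_nonneg ((γ n).2 - (γ (n + 1)).2)
      have e3 := abs_nonneg ((γ (-((n : ℤ) + 1))).1 - (γ (-(n : ℤ))).1)
      have e4 := abs_nonneg ((γ (-((n : ℤ) + 1))).2 - (γ (-(n : ℤ))).2)
      have f1 := abs_le.1 (show |(γ n).1 - (γ (n + 1)).1| ≤ 1 by omega)
      have f2 := abs_le.1 (show |(γ n).2 - (γ (n + 1)).2| ≤ 1 by omega)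
      have f3 := abs_le.1 (show |(γ (-((n : ℤ) + 1))).1 - (γ (-(n : ℤ))).1| ≤ 1 by omega)
      have f4 := abs_le.1 (show |(γ (-((n : ℤ) + 1))).2 - (γ (-(n : ℤ))).2| ≤ 1 by omega)
      omega
  obtain ⟨n, rfl | rfl⟩ := i.eq_nat_or_neg
  · simpa using (key n (by simpa using hi)).1
  · simpa using (key n (by simpa using hi)).2

/-- Compactness: lines cut off at every radius give a line. -/
theorem exists_line {δ a b : ℝ} {R J : ℕ} {t : Conf}
    (h : ∀ K, ∃ γ, ObjAt δ a b R J K t γ) : ∃ γ, ∀ K, ObjAt δ a b R J K t γ := by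
  choose g hg using h
  let U : Ultrafilter ℕ := hyperfilter ℕ
  have hK : ∀ K : ℕ, ∀ᶠ n in (U : Filter ℕ), K ≤ n := fun K =>
    Nat.hyperfilter_le_atTop (eventually_ge_atTop K)
  have hlim : ∀ i : ℤ, ∃ v : V, ∀ᶠ n in (U : Filter ℕ), g n i = v := by
    intro i
    have hfin : ((Finset.Icc (-(i.natAbs : ℤ)) i.natAbs ×ˢ
        Finset.Icc (-(i.natAbs : ℤ)) i.natAbs : Finset V) : Set V).Finite := Finset.finite_toSet _
    have hev : ∀ᶠ n in (U : Filter ℕ), ∃ v ∈ ((Finset.Icc (-(i.natAbs : ℤ)) i.natAbs ×ˢ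
        Finset.Icc (-(i.natAbs : ℤ)) i.natAbs : Finset V) : Set V), g n i = v := by
      filter_upwards [hK i.natAbs] with n hn
      have := objAt_bound (hg n) i (by omega)
      refine ⟨g n i, ?_, rfl⟩
      simp only [Finset.coe_product, Finset.coe_Icc, Set.mem_prod, Set.mem_Icc]
      omega
    obtain ⟨v, -, hv⟩ := (Ultrafilter.eventually_exists_mem_iff hfin).1 hev
    exact ⟨v, hv⟩
  choose γ hγ using hlim
  refine ⟨γ, fun K => ?_⟩
  have hall : ∀ᶠ n in (U : Filter ℕ), ∀ i ∈ Finset.Icc (-((K : ℤ) + 1)) ((K : ℤ) + 1), g n i = γ i :=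
    (Filter.eventually_all_finset _).2 fun i _ => hγ i
  obtain ⟨n, hn, hKn⟩ := (hall.and (hK K)).exists
  exact objAt_congr (fun i hi => (hn i (Finset.mem_Icc.2 ⟨by omega, by omega⟩)).symm)
    (objAt_mono hKn (hg n))

theorem measurableSet_objEvent (M δ a b : ℝ) (R J : ℕ) :
    MeasurableSet (objEvent M δ a b R J) := by
  have h : objEvent M δ a b R J = {t | InRange M t} ∩
      ⋂ K : ℕ, ⋃ f : ((Finset.Icc (-((K : ℤ) + 1)) ((K : ℤ) + 1)) → V),
        {t | ObjAt δ a b R J K t fun i =>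
          if hi : i ∈ Finset.Icc (-((K : ℤ) + 1)) ((K : ℤ) + 1) then f ⟨i, hi⟩ else 0} := by
    ext t
    simp only [objEvent, Set.mem_inter_iff, Set.mem_setOf_eq, Set.mem_iInter, Set.mem_iUnion]
    refine and_congr_right fun _ => ⟨?_, fun hK => exists_line fun K => ?_⟩
    · rintro ⟨γ, hγ⟩ K
      refine ⟨fun i => γ i, objAt_congr (fun i hi => ?_) (hγ K)⟩
      rw [dif_pos (Finset.mem_Icc.2 ⟨by omega, by omega⟩)]
    · obtain ⟨f, hf⟩ := hK K
      exact ⟨_, hf⟩
  rw [h]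
  exact (measurableSet_inRange M).inter
    (.iInter fun K => .iUnion fun f => measurableSet_objAt δ a b R J K _)

end Vale.Agent.P158.Units
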