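import Vale.Agent.P158.Units.Events

/-!
Lowering the weight of the entrance edge: the probability of a line through that edge is at most a
constant times the probability of a line with a margin.
-/

open MeasureTheory Filter Topology

namespace Vale.Agent.P158.Units

theorem prob_inRange {G : Measure ℝ} {M : ℝ} (hG : LawOK G M) :
    ∀ᵐ t ∂law G, InRange M t := by
  have := hG.prob
  rw [ae_iff]
  have hsub : {t : Conf | ¬ InRange M t} ⊆ ⋃ e : Edge, (fun t : Conf => t e) ⁻¹' (Set.Icc 0 M)ᶜ := by
    intro t ht
    simp only [InRange, not_forall, Set.mem_setOf_eq] at ht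
    obtain ⟨e, he⟩ := ht
    exact Set.mem_iUnion.2 ⟨e, he⟩
  refine measure_mono_null hsub (measure_iUnion_null fun e => ?_)
  have hmp := measurePreserving_eval_infinitePi (fun _ : Edge => G) e
  show law G ((Function.eval e) ⁻¹' (Set.Icc 0 M)ᶜ) = 0
  rw [law, hmp.measure_preimage measurableSet_Icc.compl.nullMeasurableSet,
    measure_compl measurableSet_Icc (measure_ne_top _ _), hG.supp, measure_univ, tsub_self]

/-- The translation of edges as an equivalence. -/
def eShiftEquiv (v : V) : Edge ≃ Edge where
  toFun := eShift v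
  invFun := eShift (-v)
  left_inv e := by simp [eShift]
  right_inv e := by simp [eShift]

theorem measurable_shift (v : V) : Measurable (shift v) :=
  measurable_pi_lambda _ fun _ => measurable_pi_apply _

theorem law_shift (G : Measure ℝ) [IsProbabilityMeasure G] (v : V) :
    (law G).map (shift v) = law G := by
  refine Measure.eq_infinitePi _ fun s u hu => ?_
  rw [Measure.map_apply (measurable_shift v) (.pi s.countable_toSet fun i _ => hu i)]
  have h : shift v ⁻¹' ((s : Set Edge).pi u) =
      ((s.map (eShiftEquiv v).toEmbedding : Finset Edge) : Set Edge).pi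
        fun e => u ((eShiftEquiv v).symm e) := by
    ext t
    simp only [Set.mem_preimage, Set.mem_pi, Finset.mem_coe, Finset.mem_map_equiv]
    constructor
    · intro h e he
      have := h _ he
      rwa [shift, show eShift v ((eShiftEquiv v).symm e) = e from
        (eShiftEquiv v).apply_symm_apply e] at this
    · intro h e he
      have := h ((eShiftEquiv v) e) (by simpa using he)
      simpa [shift, eShiftEquiv, eShift] using this
  rw [h, law, Measure.infinitePi_pi _ (fun e _ => hu _), Finset.prod_map]
  simp

theorem law_update (G : Measure ℝ) [IsProbabilityMeasure G] (e : Edge) :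
    ((law G).prod G).map (fun p : Conf × ℝ => Function.update p.1 e p.2) = law G := by
  classical
  refine Measure.eq_infinitePi _ fun s u hu => ?_
  rw [Measure.map_apply (by fun_prop) (.pi s.countable_toSet fun i _ => hu i)]
  by_cases he : e ∈ s
  · have h : (fun p : Conf × ℝ => Function.update p.1 e p.2) ⁻¹' ((s : Set Edge).pi u) =
        ((s.erase e : Finset Edge) : Set Edge).pi u ×ˢ u e := by
      ext ⟨t, x⟩
      simp only [Set.mem_preimage, Set.mem_pi, Finset.mem_coe, Finset.mem_erase, Set.mem_prod]
      constructor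
      · intro h
        refine ⟨fun i hi => ?_, ?_⟩
        · simpa [Function.update_of_ne hi.1] using h i hi.2
        · simpa using h e he
      · rintro ⟨h1, h2⟩ i hi
        rcases eq_or_ne i e with rfl | hne
        · simpa using h2
        · simpa [Function.update_of_ne hne] using h1 i ⟨hne, hi⟩
    rw [h, Measure.prod_prod, law, Measure.infinitePi_pi _ (fun i _ => hu i),
      Finset.prod_erase_mul _ _ he]
  · have h : (fun p : Conf × ℝ => Function.update p.1 e p.2) ⁻¹' ((s : Set Edge).pi u) =
        (s : Set Edge).pi u ×ˢ Set.univ := by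
      ext ⟨t, x⟩
      simp only [Set.mem_preimage, Set.mem_pi, Finset.mem_coe, Set.mem_prod, Set.mem_univ, and_true]
      refine forall₂_congr fun i hi => ?_
      rw [Function.update_of_ne (fun hie : i = e => he (hie ▸ hi))]
    rw [h, Measure.prod_prod, law, Measure.infinitePi_pi _ (fun i _ => hu i), measure_univ, mul_one]

theorem measure_inter_le_of_lower {G : Measure ℝ} [IsProbabilityMeasure G] (e : Edge)
    {E L : Set Conf} {S : Set ℝ} (hL : MeasurableSet L)
    (h : ∀ t ∈ E, ∀ x ∈ S, Function.update t e x ∈ L) : law G E * G S ≤ law G L := by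
  calc law G E * G S = ((law G).prod G) (E ×ˢ S) := (Measure.prod_prod _ _).symm
    _ ≤ ((law G).prod G) ((fun p : Conf × ℝ => Function.update p.1 e p.2) ⁻¹' L) :=
        measure_mono fun p hp => h _ hp.1 _ hp.2
    _ = law G L := by
        rw [← Measure.map_apply (by fun_prop) hL, law_update]

/-- The weight of a list of darts. -/
def dsum (t : Conf) (l : List grid.Dart) : ℝ := (l.map fun d => wt t d.toProd.1 d.toProd.2).sum

theorem plen_bypass_le {t : Conf} (ht : ∀ e, 0 ≤ t e) {x y : V} (p : grid.Walk x y) :
    plen t p.bypass ≤ plen t p := by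
  classical
  have hnd : p.bypass.darts.Nodup :=
    SimpleGraph.Walk.darts_nodup_of_support_nodup p.bypass_isPath.support_nodup
  obtain ⟨l, hperm, hsub⟩ := hnd.subperm p.darts_bypass_subset_darts
  show dsum t p.bypass.darts ≤ dsum t p.darts
  unfold dsum
  rw [← (hperm.map fun d : grid.Dart => wt t d.toProd.1 d.toProd.2).sum_eq]
  exact (hsub.map fun d : grid.Dart => wt t d.toProd.1 d.toProd.2).sum_le_sum fun x hx => by
    obtain ⟨d, -, rfl⟩ := List.mem_map.1 hx
    exact ht _

theorem plen_update_of_avoid (t : Conf) (e : Edge) (x : ℝ) {u v : V} (p : grid.Walk u v)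
    (hp : ∀ d ∈ p.darts, edgeOf d.toProd.1 d.toProd.2 ≠ e) :
    plen (Function.update t e x) p = plen t p := by
  unfold plen
  refine congrArg List.sum (List.map_congr_left fun d hd => ?_)
  exact Function.update_of_ne (hp d hd) _ _

theorem adj_edgeOf_inj {u v u' v' : V} (h : Adj u v) (h' : Adj u' v')
    (he : edgeOf u v = edgeOf u' v') : (u = u' ∧ v = v') ∨ (u = v' ∧ v = u') := by
  simp only [edgeOf, Prod.mk.injEq, decide_eq_decide] at he
  obtain ⟨⟨h1, h2⟩, h3⟩ := he
  simp only [Adj, abs_eq_max_neg] at h h'
  simp only [Prod.ext_iff]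
  omega

theorem plen_update_path (t : Conf) (e : Edge) {x : ℝ} (hx : x ≤ t e) {u v : V}
    (p : grid.Walk u v) (hp : p.IsPath) :
    plen t p ≤ plen (Function.update t e x) p + (t e - x) := by
  induction p with
  | nil => simpa [plen] using hx
  | @cons a b c hab q ih =>
    rw [SimpleGraph.Walk.cons_isPath_iff] at hp
    simp only [plen, SimpleGraph.Walk.darts_cons, List.map_cons, List.sum_cons] at ih ⊢
    by_cases hae : edgeOf a b = e
    · have havoid : ∀ d ∈ q.darts, edgeOf d.toProd.1 d.toProd.2 ≠ e := by
        intro d hd heq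
        have hd1 := q.dart_fst_mem_support_of_mem_darts hd
        have hd2 := q.dart_snd_mem_support_of_mem_darts hd
        rcases adj_edgeOf_inj d.adj hab (heq.trans hae.symm) with ⟨h1, -⟩ | ⟨-, h2⟩
        · exact hp.2 (h1 ▸ hd1)
        · exact hp.2 (h2 ▸ hd2)
      have hq := plen_update_of_avoid t e x q havoid
      simp only [plen, wt] at hq
      simp only [wt, hae, Function.update_self]
      linarith
    · have := ih hp.1
      simp only [wt, Function.update_of_ne hae]
      simp only [wt] at this
      linarith

theorem T_le_plen {M : ℝ} {t : Conf} (ht : InRange M t) {x y : V} (p : grid.Walk x y) :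
    T t x y ≤ plen t p :=
  csInf_le ⟨0, by
    rintro r ⟨q, rfl⟩
    exact List.sum_nonneg fun z hz => by
      obtain ⟨d, -, rfl⟩ := List.mem_map.1 hz
      exact (ht _).1⟩ ⟨p, rfl⟩

theorem seg_update {t : Conf} {γ : ℤ → V} (hinj : Function.Injective γ)
    (hadj : ∀ i, Adj (γ i) (γ (i + 1))) (h0 : γ 0 = (0, 0)) (h1 : γ (-1) = (-1, 0))
    (x : ℝ) (i j : ℤ) :
    seg (Function.update t e0 x) γ i j = seg t γ i j - if i ≤ -1 ∧ -1 < j then t e0 - x else 0 := by
  unfold seg
  have he : edgeOf (γ (-1)) (γ (-1 + 1)) = e0 := by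
    rw [show (-1 : ℤ) + 1 = 0 by norm_num, h0, h1]; decide
  have hterm : ∀ k, wt (Function.update t e0 x) (γ k) (γ (k + 1)) =
      wt t (γ k) (γ (k + 1)) - if k = -1 then t e0 - x else 0 := by
    intro k
    by_cases hk : k = -1
    · subst hk
      simp only [wt, he, Function.update_self, if_pos]
      ring
    · have hne : edgeOf (γ k) (γ (k + 1)) ≠ e0 := by
        intro heq
        rcases adj_edgeOf_inj (hadj k) (hadj (-1)) (heq.trans he.symm) with ⟨h, -⟩ | ⟨h, h'⟩
        · exact hk (hinj h)
        · have := hinj h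
          have := hinj h'
          omega
      simp [wt, Function.update_of_ne hne, hk]
  simp only [hterm, Finset.sum_sub_distrib, Finset.sum_ite_eq', Finset.mem_Ico]

theorem plen_nonneg {t : Conf} (ht : ∀ e, 0 ≤ t e) {u v : V} (p : grid.Walk u v) :
    0 ≤ plen t p :=
  List.sum_nonneg fun z hz => by
    obtain ⟨d, -, rfl⟩ := List.mem_map.1 hz
    exact ht _

theorem edgeOf_comm (u v : V) : edgeOf u v = edgeOf v u := by
  simp [edgeOf, min_comm, eq_comm]

theorem plen_reverse (t : Conf) {u v : V} (p : grid.Walk u v) :
    plen t p.reverse = plen t p := by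
  unfold plen
  rw [SimpleGraph.Walk.darts_reverse, List.map_reverse, List.sum_reverse, List.map_map]
  refine congrArg List.sum (List.map_congr_left fun d _ => ?_)
  simp only [Function.comp, wt]
  exact congrArg t (edgeOf_comm _ _)

theorem seg_add (t : Conf) (γ : ℤ → V) {i j k : ℤ} (h1 : i ≤ j) (h2 : j ≤ k) :
    seg t γ i k = seg t γ i j + seg t γ j k := by
  unfold seg
  rw [← Finset.sum_union (Finset.Ico_disjoint_Ico_consecutive i j k),
    Finset.Ico_union_Ico_eq_Ico h1 h2]

/-- A self-avoiding walk through the entrance edge, cut at that edge. -/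
theorem path_split {u v : V} (p : grid.Walk u v) (hp : p.IsPath)
    (he : ∃ d ∈ p.darts, edgeOf d.toProd.1 d.toProd.2 = e0) :
    ∃ z z' : V, (z = (-1, 0) ∨ z = (0, 0)) ∧ (z' = (-1, 0) ∨ z' = (0, 0)) ∧
      ∃ (q : grid.Walk u z) (q' : grid.Walk z' v),
        (∀ d ∈ q.darts, edgeOf d.toProd.1 d.toProd.2 ≠ e0) ∧
        (∀ d ∈ q'.darts, edgeOf d.toProd.1 d.toProd.2 ≠ e0) ∧
        ∀ t : Conf, plen t p = plen t q + t e0 + plen t q' := by
  induction p with
  | nil => simp at he
  | @cons a b c hab q ih =>
    rw [SimpleGraph.Walk.cons_isPath_iff] at hp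
    by_cases hae : edgeOf a b = e0
    · have hbase : edgeOf ((-1, 0) : V) (0, 0) = e0 := by decide
      have hends := adj_edgeOf_inj hab (show Adj ((-1, 0) : V) (0, 0) by simp [Adj])
        (hae.trans hbase.symm)
      refine ⟨a, b, by tauto, by tauto, .nil, q, by simp, ?_, fun t => ?_⟩
      · intro d hd heq
        rcases adj_edgeOf_inj d.adj hab (heq.trans hae.symm) with ⟨h1, -⟩ | ⟨-, h2⟩
        · exact hp.2 (h1 ▸ q.dart_fst_mem_support_of_mem_darts hd)
        · exact hp.2 (h2 ▸ q.dart_snd_mem_support_of_mem_darts hd)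
      · simp [plen, wt, hae]
    · obtain ⟨d, hd, hde⟩ := he
      rw [SimpleGraph.Walk.darts_cons, List.mem_cons] at hd
      rcases hd with rfl | hd
      · exact absurd hde hae
      · obtain ⟨z, z', hz, hz', r, r', hr, hr', heq⟩ := ih hp.1 ⟨d, hd, hde⟩
        refine ⟨z, z', hz, hz', .cons hab r, r', ?_, hr', fun t => ?_⟩
        · intro d' hd'
          rw [SimpleGraph.Walk.darts_cons, List.mem_cons] at hd'
          rcases hd' with rfl | hd'
          · exact hae
          · exact hr d' hd'
        · have := heq t
          simp only [plen, SimpleGraph.Walk.darts_cons, List.map_cons, List.sum_cons] at this ⊢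
          linarith

/-- A line through the entrance edge gives a line with a margin once that edge is lowered. -/
theorem lower_mem {M r₀ r₁ a b : ℝ} {R J : ℕ} (hr₀ : r₀ ≤ M) (hr : r₀ ≤ r₁) {t : Conf}
    (ht : t ∈ unitEvent r₁ a b R J) (hM : InRange M t) {x : ℝ} (hx : x ∈ Set.Icc 0 r₀) :
    Function.update t e0 x ∈ objEvent M (r₁ - r₀) a b R J := by
  obtain ⟨hr₁, γ, ⟨hgeo, hf, hb⟩, h0, h1, hleft, hcross⟩ := ht
  have hrange : InRange M (Function.update t e0 x) := by
    intro e
    rcases eq_or_ne e e0 with rfl | he
    · rw [Function.update_self]; exact ⟨hx.1, hx.2.trans hr₀⟩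
    · rw [Function.update_of_ne he]; exact hM e
  have hd : x ≤ t e0 := hx.2.trans (hr.trans hr₁)
  have hdelta : r₁ - r₀ ≤ t e0 - x := by
    have : r₁ ≤ t e0 := hr₁
    linarith [hx.2]
  have hseg := seg_update (t := t) hgeo.inj hgeo.adj h0 h1 x
  have hsegT : ∀ i j, i < j → ∀ p : grid.Walk (γ i) (γ j), seg t γ i j ≤ plen t p := fun i j hij p =>
    (hgeo.geo i j hij).le.trans (T_le_plen hM p)
  refine ⟨hrange, γ, fun K => ?_⟩
  refine ⟨h0, h1, fun i j _ _ h => hgeo.inj h, fun i _ _ => hgeo.adj i, ?_, ?_, ?_, ?_,
    fun i _ hi => hleft i hi, fun F hF => hcross F fun i hi => (hF i hi).2⟩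
  · intro i j _ _ hij p
    have hpe := plen_update_path t e0 hd p.bypass p.bypass_isPath
    have hle := plen_bypass_le (fun e => (hrange e).1) p
    have h := hsegT i j hij p.bypass
    rw [hseg]
    split_ifs with hin
    · linarith
    · rw [sub_zero]
      by_cases hav : ∀ d ∈ p.bypass.darts, edgeOf d.toProd.1 d.toProd.2 ≠ e0
      · rw [plen_update_of_avoid t e0 x _ hav] at hle
        exact h.trans hle
      · push Not at hav
        obtain ⟨z, z', hz, hz', q, q', hq, hq', heq⟩ :=
          path_split p.bypass p.bypass_isPath hav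
        have hsplit : plen t q + x + plen t q' ≤ plen (Function.update t e0 x) p := by
          rw [heq, Function.update_self, plen_update_of_avoid t e0 x q hq,
            plen_update_of_avoid t e0 x q' hq'] at hle
          linarith
        have hnn : ∀ k l, 0 ≤ seg t γ k l := fun k l => Finset.sum_nonneg fun n _ => (hM _).1
        have hend : ∀ (k : ℤ) (w : V), (w = (-1, 0) ∨ w = (0, 0)) → ∀ r : grid.Walk (γ k) w,
            (0 ≤ k → seg t γ 0 k ≤ plen t r) ∧ (k ≤ -1 → seg t γ k (-1) ≤ plen t r) := by
          intro k w hw r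
          rcases hw with rfl | rfl
          · refine ⟨fun hk => ?_, fun hk => ?_⟩
            · have h5 := hsegT (-1) k (by omega) (r.reverse.copy h1.symm rfl)
              rw [plen_copy, plen_reverse, seg_add t γ (show (-1 : ℤ) ≤ 0 by norm_num) hk] at h5
              linarith [hnn (-1) 0]
            · rcases hk.lt_or_eq with hk' | rfl
              · have h5 := hsegT k (-1) hk' (r.copy rfl h1.symm)
                rwa [plen_copy] at h5
              · simpa [seg] using plen_nonneg (fun e => (hM e).1) r
          · refine ⟨fun hk => ?_, fun hk => ?_⟩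
            · rcases hk.lt_or_eq with hk' | rfl
              · have h5 := hsegT 0 k hk' (r.reverse.copy h0.symm rfl)
                rwa [plen_copy, plen_reverse] at h5
              · simpa [seg] using plen_nonneg (fun e => (hM e).1) r
            · have h5 := hsegT k 0 (by omega) (r.copy rfl h0.symm)
              rw [plen_copy, seg_add t γ hk (show (-1 : ℤ) ≤ 0 by norm_num)] at h5
              linarith [hnn (-1) 0]
        have hA := hend i z hz q
        have hB := hend j z' hz' q'.reverse
        rw [plen_reverse] at hB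
        rcases le_or_gt 0 i with hi0 | hi0
        · have h6 := hA.1 hi0
          have h7 := hB.1 (by omega)
          have h8 := seg_add t γ hi0 hij.le
          linarith [hnn 0 i, hx.1]
        · have h6 := hA.2 (by omega)
          have h7 := hB.2 (by omega)
          have h8 := seg_add t γ hij.le (show j ≤ -1 by omega)
          linarith [hnn j (-1), hx.1]
  · intro n m _ _ p hp
    have h := hsegT _ _ (by omega) p
    rw [hseg, if_pos (by omega), plen_update_of_avoid t e0 x p hp]
    linarith
  · intro n _ hn
    have := hf n hn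
    simpa [fwd, lev, h0] using this
  · intro n _ hn
    obtain ⟨hpos, hlo, hhi⟩ := hb n hn
    simp only [bwd, lev, h0, zero_sub, Nat.cast_zero, sub_zero] at hpos hlo hhi
    refine ⟨by omega, ?_, ?_⟩
    · simpa using hlo
    · simpa using hhi

end Vale.Agent.P158.Units
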