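import Vale.Agent.P158.Units.Lower

/-!
Potentials of tails inside an edge set, and the interlacing of their increments.
-/

open MeasureTheory Filter Topology

namespace Vale.Agent.P158.Units

/-- Walks with interleaved ends on the boundary of a half-plane share a vertex; `σ = ±1` tells the
side, heights are measured by `σ` times the second coordinate. -/
def SideMeet (σ : ℤ) : Prop :=
  ∀ c v₁ v₂ v₃ v₄ : ℤ, v₁ ≤ v₂ → v₂ ≤ v₃ → v₃ ≤ v₄ →
    ∀ (P : grid.Walk (σ * c, σ * v₁) (σ * c, σ * v₃)) (Q : grid.Walk (σ * c, σ * v₂) (σ * c, σ * v₄)),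
      (∀ z ∈ P.support, σ * z.1 ≤ c) → (∀ z ∈ Q.support, σ * z.1 ≤ c) →
      ∃ z, z ∈ P.support ∧ z ∈ Q.support

/-- The Busemann function of a tail inside `S`. -/
noncomputable def pot (t : Conf) (S : Set Edge) (r : ℕ → V) (z : V) : ℝ :=
  sInf {x | ∃ (n : ℕ) (W : grid.Walk (r n) z), WalkIn S W ∧ x = plen t W - rlen t r n}

/-- A tail to the side `σ` in the slope interval `[a, b]` seen from height `y`. -/
structure Tail (t : Conf) (S : Set Edge) (σ y : ℤ) (a b : ℝ) (R : ℕ) (r : ℕ → V) : Prop where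
  start : (r 0).2 = y
  inj : Function.Injective r
  adj : ∀ i, Adj (r i) (r (i + 1))
  mem : ∀ i, edgeOf (r i) (r (i + 1)) ∈ S
  geo : ∀ n (W : grid.Walk (r n) (r 0)), rlen t r n ≤ plen t W
  cone : ∀ n, R ≤ n → 0 < σ * (r n).1 ∧
    a * ((σ * (r n).1 : ℤ) : ℝ) ≤ ((σ * ((r n).2 - y) : ℤ) : ℝ) ∧
    ((σ * ((r n).2 - y) : ℤ) : ℝ) ≤ b * ((σ * (r n).1 : ℤ) : ℝ)

variable {t : Conf} {S : Set Edge} {σ y : ℤ} {a b : ℝ} {R : ℕ} {r : ℕ → V}

theorem plen_cons (t : Conf) {x z w : V} (h : grid.Adj x z) (p : grid.Walk z w) :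
    plen t (SimpleGraph.Walk.cons h p) = wt t x z + plen t p := rfl

theorem plen_append (t : Conf) {x z w : V} (p : grid.Walk x z) (q : grid.Walk z w) :
    plen t (p.append q) = plen t p + plen t q := by
  unfold plen
  rw [SimpleGraph.Walk.darts_append, List.map_append, List.sum_append]

theorem walkIn_append {x z w : V} {p : grid.Walk x z} {q : grid.Walk z w} (hp : WalkIn S p)
    (hq : WalkIn S q) : WalkIn S (p.append q) := fun d hd => by
  rw [SimpleGraph.Walk.darts_append, List.mem_append] at hd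
  exact hd.elim (hp d) (hq d)

theorem walkIn_reverse {x z : V} {p : grid.Walk x z} (hp : WalkIn S p) : WalkIn S p.reverse :=
  fun d hd => by
    rw [SimpleGraph.Walk.darts_reverse, List.mem_reverse, List.mem_map] at hd
    obtain ⟨d', hd', rfl⟩ := hd
    have := hp d' hd'
    rwa [edgeOf_comm] at this

theorem Tail.segment (h : Tail t S σ y a b R r) {n m : ℕ} (hnm : n ≤ m) :
    ∃ W : grid.Walk (r m) (r n), WalkIn S W ∧ plen t W = rlen t r m - rlen t r n ∧
      ∀ z ∈ W.support, ∃ i, n ≤ i ∧ i ≤ m ∧ r i = z := by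
  induction m, hnm using Nat.le_induction with
  | base =>
    refine ⟨.nil, fun d hd => by simp at hd, by simp [plen], fun z hz => ?_⟩
    simp only [SimpleGraph.Walk.support_nil, List.mem_singleton] at hz
    exact ⟨n, le_rfl, le_rfl, hz.symm⟩
  | succ m hm ih =>
    obtain ⟨W, hW, hlen, hsup⟩ := ih
    have hadj : grid.Adj (r (m + 1)) (r m) := grid.symm.symm _ _ (h.adj m)
    refine ⟨.cons hadj W, ?_, ?_, ?_⟩
    · intro d hd
      rw [SimpleGraph.Walk.darts_cons, List.mem_cons] at hd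
      rcases hd with rfl | hd
      · show edgeOf (r (m + 1)) (r m) ∈ S
        rw [edgeOf_comm]; exact h.mem m
      · exact hW d hd
    · rw [plen_cons, hlen]
      simp only [rlen, Finset.sum_range_succ]
      simp only [wt, edgeOf_comm (r (m + 1)) (r m)]
      ring
    · intro z hz
      rw [SimpleGraph.Walk.support_cons, List.mem_cons] at hz
      rcases hz with rfl | hz
      · exact ⟨m + 1, by omega, le_rfl, rfl⟩
      · obtain ⟨i, h1, h2, h3⟩ := hsup z hz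
        exact ⟨i, h1, by omega, h3⟩

theorem Tail.bddBelow (h : Tail t S σ y a b R r) (z : V) (C : grid.Walk z (r 0)) :
    BddBelow {x | ∃ (n : ℕ) (W : grid.Walk (r n) z), WalkIn S W ∧ x = plen t W - rlen t r n} := by
  refine ⟨-plen t C, ?_⟩
  rintro x ⟨n, W, -, rfl⟩
  have := h.geo n (W.append C)
  rw [plen_append] at this
  linarith

theorem Tail.pot_le (h : Tail t S σ y a b R r) {z : V} (C : grid.Walk z (r 0)) {n : ℕ}
    (W : grid.Walk (r n) z) (hW : WalkIn S W) : pot t S r z ≤ plen t W - rlen t r n :=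
  csInf_le (h.bddBelow z C) ⟨n, W, hW, rfl⟩

theorem Tail.pot_start (h : Tail t S σ y a b R r) : pot t S r (r 0) ≤ 0 := by
  have := h.pot_le (z := r 0) .nil (n := 0) .nil (fun d hd => by simp at hd)
  simpa [plen, rlen] using this

theorem Tail.pot_approx (h : Tail t S σ y a b R r) {z : V} (C : grid.Walk z (r 0))
    (hC : WalkIn S C) {ε : ℝ} (hε : 0 < ε) :
    ∃ (n : ℕ) (W : grid.Walk (r n) z), WalkIn S W ∧
      plen t W - rlen t r n < pot t S r z + ε := by
  have hne : {x | ∃ (n : ℕ) (W : grid.Walk (r n) z),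
      WalkIn S W ∧ x = plen t W - rlen t r n}.Nonempty :=
    ⟨_, 0, C.reverse, walkIn_reverse hC, rfl⟩
  obtain ⟨x, ⟨n, W, hW, rfl⟩, hx⟩ :=
    exists_lt_of_csInf_lt hne (show pot t S r z < pot t S r z + ε by linarith)
  exact ⟨n, W, hW, hx⟩

theorem Tail.pot_step (h : Tail t S σ y a b R r) {u w : V} (Cu : grid.Walk u (r 0))
    (hCu : WalkIn S Cu) (hadj : Adj u w) (hmem : edgeOf u w ∈ S) :
    pot t S r w ≤ pot t S r u + wt t u w := by
  refine le_of_forall_pos_lt_add fun ε hε => ?_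
  obtain ⟨n, W, hW, hlt⟩ := h.pot_approx Cu hCu hε
  have hstep : WalkIn S (SimpleGraph.Walk.cons (show grid.Adj u w from hadj) .nil) := by
    intro d hd
    simp only [SimpleGraph.Walk.darts_cons, SimpleGraph.Walk.darts_nil, List.mem_cons,
      List.not_mem_nil, or_false] at hd
    subst hd; exact hmem
  have := h.pot_le (SimpleGraph.Walk.cons (show grid.Adj u w from hadj).symm Cu)
    (W.append (.cons (show grid.Adj u w from hadj) .nil)) (walkIn_append hW hstep)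
  rw [plen_append, plen_cons] at this
  simp [plen] at this hlt ⊢
  linarith

theorem Tail.unbounded (h : Tail t S σ y a b R r) (hσ : σ = 1 ∨ σ = -1) (c : ℤ) :
    ∃ n, c ≤ σ * (r n).1 := by
  by_contra hne
  push Not at hne
  set K : ℤ := ⌈(|a| + |b|) * |(c : ℝ)|⌉ with hK
  have hmaps : ∀ n, R ≤ n → r n ∈ (Finset.Icc (-|c|) |c| ×ˢ Finset.Icc (y - K) (y + K) : Finset V) := by
    intro n hn
    obtain ⟨hpos, hlo, hhi⟩ := h.cone n hn
    have hlt := hne n
    have hX0 : (0 : ℝ) ≤ ((σ * (r n).1 : ℤ) : ℝ) := by exact_mod_cast hpos.le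
    have hX : ((σ * (r n).1 : ℤ) : ℝ) ≤ |(c : ℝ)| :=
      le_trans (by exact_mod_cast hlt.le) (le_abs_self _)
    have hK' : (|a| + |b|) * |(c : ℝ)| ≤ K := Int.le_ceil _
    have h1 : ((σ * ((r n).2 - y) : ℤ) : ℝ) ≤ K := by
      refine hhi.trans (le_trans ?_ hK')
      nlinarith [abs_nonneg a, abs_nonneg b, le_abs_self b, abs_nonneg (c : ℝ)]
    have h2 : -(K : ℝ) ≤ ((σ * ((r n).2 - y) : ℤ) : ℝ) := by
      refine le_trans ?_ hlo
      nlinarith [abs_nonneg a, abs_nonneg b, neg_abs_le a, abs_nonneg (c : ℝ)]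
    have h1' : σ * ((r n).2 - y) ≤ K := by exact_mod_cast h1
    have h2' : -K ≤ σ * ((r n).2 - y) := by exact_mod_cast h2
    have := le_abs_self c
    rw [Finset.mem_product, Finset.mem_Icc, Finset.mem_Icc]
    rcases hσ with rfl | rfl <;> omega
  have hinf : Set.Infinite (r '' Set.Ici R) := (Set.Ici_infinite R).image h.inj.injOn
  exact hinf ((Finset.finite_toSet _).subset (by rintro v ⟨n, hn, rfl⟩; exact hmaps n hn))

/-- Continue a walk along the tail up to the first visit of a far column. -/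
theorem Tail.extend (h : Tail t S σ y a b R r) (hσ : σ = 1 ∨ σ = -1) {z : V} {n : ℕ}
    (W : grid.Walk (r n) z) (hW : WalkIn S W) {c : ℤ}
    (hW' : ∀ v ∈ W.support, σ * v.1 ≤ c) (hr : ∀ i ≤ max n R, σ * (r i).1 < c) :
    ∃ (v : ℤ) (W' : grid.Walk (σ * c, σ * v) z) (m : ℕ), WalkIn S W' ∧
      (∀ u ∈ W'.support, σ * u.1 ≤ c) ∧ r m = (σ * c, σ * v) ∧
      plen t W' - rlen t r m = plen t W - rlen t r n ∧
      a * (c : ℝ) ≤ ((v - σ * y : ℤ) : ℝ) ∧ ((v - σ * y : ℤ) : ℝ) ≤ b * (c : ℝ) := by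
  obtain ⟨m₀, hm₀⟩ := h.unbounded hσ c
  have hex : ∃ m, c ≤ σ * (r m).1 := ⟨m₀, hm₀⟩
  set m := Nat.find hex with hm
  have hmc : c ≤ σ * (r m).1 := Nat.find_spec hex
  have hlt : ∀ i < m, σ * (r i).1 < c := fun i hi => lt_of_not_ge (Nat.find_min hex hi)
  have hnm : max n R < m := by
    by_contra hle
    exact absurd hmc (not_le.2 (hr m (not_lt.1 hle)))
  have heq : σ * (r m).1 = c := by
    obtain ⟨i, hi⟩ : ∃ i, m = i + 1 := ⟨m - 1, by omega⟩
    have h1 := hlt i (by omega)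
    have h2 := h.adj i
    rw [← hi] at h2
    simp only [Adj] at h2
    have := abs_nonneg ((r i).2 - (r m).2)
    have := abs_le.1 (show |(r i).1 - (r m).1| ≤ 1 by omega)
    rcases hσ with rfl | rfl <;> omega
  have hend : r m = (σ * c, σ * (σ * (r m).2)) := by
    rcases hσ with rfl | rfl <;> ext <;> simp only [] <;> omega
  obtain ⟨P, hP, hPlen, hPsup⟩ := h.segment (show n ≤ m by omega)
  refine ⟨σ * (r m).2, (P.append W).copy hend rfl, m, ?_, ?_, hend, ?_, ?_⟩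
  · intro d hd
    rw [SimpleGraph.Walk.darts_copy] at hd
    exact walkIn_append hP hW d hd
  · intro u hu
    rw [SimpleGraph.Walk.support_copy, SimpleGraph.Walk.mem_support_append_iff] at hu
    rcases hu with hu | hu
    · obtain ⟨i, -, hi, rfl⟩ := hPsup u hu
      rcases hi.lt_or_eq with hi | rfl
      · exact (hlt i hi).le
      · exact heq.le
    · exact hW' u hu
  · rw [plen_copy, plen_append, hPlen]; ring
  · obtain ⟨-, h1, h2⟩ := h.cone m (by omega)
    rw [heq] at h1 h2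
    rw [show σ * (r m).2 - σ * y = σ * ((r m).2 - y) by ring]
    exact ⟨h1, h2⟩

theorem seg_split {S : Set Edge} {x z v : V} (p : grid.Walk x z) (hp : WalkIn S p)
    (hv : v ∈ p.support) :
    ∃ (p₁ : grid.Walk x v) (p₂ : grid.Walk v z), WalkIn S p₁ ∧ WalkIn S p₂ ∧
      plen t p = plen t p₁ + plen t p₂ := by
  classical
  refine ⟨p.takeUntil v hv, p.dropUntil v hv, ?_, ?_, ?_⟩
  · exact fun d hd => hp d (p.darts_takeUntil_subset_darts hv hd)
  · exact fun d hd => hp d (p.darts_dropUntil_subset_darts hv hd)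
  · rw [← plen_append, SimpleGraph.Walk.take_spec]

/-- The swap inequality for four interleaved walks. -/
theorem swap_of_meet (hmeet : SideMeet σ) {c v₁ v₂ v₃ v₄ : ℤ} (h₁₂ : v₁ ≤ v₂) (h₂₃ : v₂ ≤ v₃)
    (h₃₄ : v₃ ≤ v₄) {u w : V}
    (W₁ : grid.Walk (σ * c, σ * v₁) w) (W₃ : grid.Walk (σ * c, σ * v₃) w)
    (W₂ : grid.Walk (σ * c, σ * v₂) u) (W₄ : grid.Walk (σ * c, σ * v₄) u)
    (h₁ : ∀ z ∈ W₁.support, σ * z.1 ≤ c) (h₃ : ∀ z ∈ W₃.support, σ * z.1 ≤ c)
    (h₂ : ∀ z ∈ W₂.support, σ * z.1 ≤ c) (h₄ : ∀ z ∈ W₄.support, σ * z.1 ≤ c) :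
    ∃ z, (z ∈ W₁.support ∧ z ∈ W₂.support) ∨ (z ∈ W₁.support ∧ z ∈ W₄.support) ∨
      (z ∈ W₃.support ∧ z ∈ W₂.support) ∨ (z ∈ W₃.support ∧ z ∈ W₄.support) := by
  obtain ⟨z, hzP, hzQ⟩ := hmeet c v₁ v₂ v₃ v₄ h₁₂ h₂₃ h₃₄ (W₁.append W₃.reverse)
    (W₂.append W₄.reverse)
    (fun z hz => by
      rw [SimpleGraph.Walk.mem_support_append_iff, SimpleGraph.Walk.support_reverse,
        List.mem_reverse] at hz
      exact hz.elim (h₁ z) (h₃ z))
    (fun z hz => by
      rw [SimpleGraph.Walk.mem_support_append_iff, SimpleGraph.Walk.support_reverse,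
        List.mem_reverse] at hz
      exact hz.elim (h₂ z) (h₄ z))
  rw [SimpleGraph.Walk.mem_support_append_iff, SimpleGraph.Walk.support_reverse,
    List.mem_reverse] at hzP hzQ
  exact ⟨z, by tauto⟩

/-- Three units cannot each straddle the same level of increments over one edge. -/
theorem no_three_straddle (hmeet : SideMeet σ) (hσ : σ = 1 ∨ σ = -1)
    {yl yh : Fin 3 → ℤ} {a b : Fin 3 → ℝ} {Rl Rh : Fin 3 → ℕ} {rl rh : Fin 3 → ℕ → V}
    (hl : ∀ i, Tail t S σ (yl i) (a i) (b i) (Rl i) (rl i))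
    (hh : ∀ i, Tail t S σ (yh i) (a i) (b i) (Rh i) (rh i))
    (h01 : b 0 < a 1) (h12 : b 1 < a 2) {u w : V}
    (hconn : ∀ i, ∀ z, z = u ∨ z = w → (∃ C : grid.Walk z (rl i 0), WalkIn S C) ∧
      ∃ C : grid.Walk z (rh i 0), WalkIn S C)
    (hgap : ∀ i j, pot t S (rl i) w - pot t S (rl i) u < pot t S (rh j) w - pot t S (rh j) u) :
    False := by
  classical
  obtain ⟨p₀, -, hp₀⟩ := Finset.exists_min_image (Finset.univ : Finset (Fin 3 × Fin 3))
    (fun p => (pot t S (rh p.2) w - pot t S (rh p.2) u) -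
      (pot t S (rl p.1) w - pot t S (rl p.1) u)) Finset.univ_nonempty
  set ε := ((pot t S (rh p₀.2) w - pot t S (rh p₀.2) u) -
    (pot t S (rl p₀.1) w - pot t S (rl p₀.1) u)) / 3 with hεdef
  have hε : 0 < ε := by have := hgap p₀.1 p₀.2; rw [hεdef]; linarith
  have hεle : ∀ i j, 3 * ε ≤ (pot t S (rh j) w - pot t S (rh j) u) -
      (pot t S (rl i) w - pot t S (rl i) u) := fun i j => by
    have := hp₀ (i, j) (Finset.mem_univ _)
    rw [hεdef]; linarith
  choose Cl hCl using fun i z hz => (hconn i z hz).1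
  choose Ch hCh using fun i z hz => (hconn i z hz).2
  choose nl Wl hWl hVl using fun i =>
    (hl i).pot_approx (Cl i w (Or.inr rfl)) (hCl i w (Or.inr rfl)) hε
  choose nh Wh hWh hVh using fun i =>
    (hh i).pot_approx (Ch i u (Or.inl rfl)) (hCh i u (Or.inl rfl)) hε
  -- the bound on the walks and on the beginnings of the tails
  obtain ⟨B₁, hB₁⟩ : BddAbove (Set.range fun i : Fin 3 => ((Finset.range (max (nl i) (Rl i) + 1)).sup
      (fun n => ((rl i n).1).natAbs) + ((Wl i).support.toFinset.sup fun z : V => z.1.natAbs) +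
      (yl i).natAbs)) := (Set.finite_range _).bddAbove
  obtain ⟨B₂, hB₂⟩ : BddAbove (Set.range fun i : Fin 3 => ((Finset.range (max (nh i) (Rh i) + 1)).sup
      (fun n => ((rh i n).1).natAbs) + ((Wh i).support.toFinset.sup fun z : V => z.1.natAbs) +
      (yh i).natAbs)) := (Set.finite_range _).bddAbove
  set B := B₁ + B₂ with hB
  obtain ⟨g, hg0, hg1, hg2⟩ : ∃ g : ℝ, 0 < g ∧ g ≤ a 1 - b 0 ∧ g ≤ a 2 - b 1 :=
    ⟨min (a 1 - b 0) (a 2 - b 1), lt_min (by linarith) (by linarith), min_le_left _ _,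
      min_le_right _ _⟩
  set c : ℤ := (B : ℤ) + 1 + ⌈(2 * (B : ℝ) + 1) / g⌉ with hc
  have hceil : (0 : ℤ) ≤ ⌈(2 * (B : ℝ) + 1) / g⌉ := Int.ceil_nonneg (by positivity)
  have hcg : 2 * (B : ℝ) < g * c := by
    have h1 : (2 * (B : ℝ) + 1) / g ≤ c := by
      rw [hc]; push_cast
      have := Int.le_ceil ((2 * (B : ℝ) + 1) / g)
      have : (0 : ℝ) ≤ B := Nat.cast_nonneg _
      linarith
    rw [div_le_iff₀ hg0] at h1
    linarith
  have hσc : ∀ x : ℤ, x.natAbs ≤ B → σ * x < c := fun x hx => by rcases hσ with rfl | rfl <;> omega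
  have hextl : ∀ i, ∃ (v : ℤ) (W' : grid.Walk (σ * c, σ * v) w) (m : ℕ), WalkIn S W' ∧
      (∀ z ∈ W'.support, σ * z.1 ≤ c) ∧ rl i m = (σ * c, σ * v) ∧
      plen t W' - rlen t (rl i) m = plen t (Wl i) - rlen t (rl i) (nl i) ∧
      a i * (c : ℝ) ≤ ((v - σ * yl i : ℤ) : ℝ) ∧ ((v - σ * yl i : ℤ) : ℝ) ≤ b i * (c : ℝ) := by
    intro i
    have hb := hB₁ ⟨i, rfl⟩
    dsimp only at hb
    refine (hl i).extend hσ (Wl i) (hWl i) (fun z hz => (hσc _ ?_).le) fun n hn => hσc _ ?_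
    · have := Finset.le_sup (f := fun z : V => z.1.natAbs) (List.mem_toFinset.2 hz)
      omega
    · have := Finset.le_sup (f := fun n => ((rl i n).1).natAbs)
        (Finset.mem_range.2 (show n < max (nl i) (Rl i) + 1 by omega))
      omega
  have hexth : ∀ i, ∃ (v : ℤ) (W' : grid.Walk (σ * c, σ * v) u) (m : ℕ), WalkIn S W' ∧
      (∀ z ∈ W'.support, σ * z.1 ≤ c) ∧ rh i m = (σ * c, σ * v) ∧
      plen t W' - rlen t (rh i) m = plen t (Wh i) - rlen t (rh i) (nh i) ∧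
      a i * (c : ℝ) ≤ ((v - σ * yh i : ℤ) : ℝ) ∧ ((v - σ * yh i : ℤ) : ℝ) ≤ b i * (c : ℝ) := by
    intro i
    have hb := hB₂ ⟨i, rfl⟩
    dsimp only at hb
    refine (hh i).extend hσ (Wh i) (hWh i) (fun z hz => (hσc _ ?_).le) fun n hn => hσc _ ?_
    · have := Finset.le_sup (f := fun z : V => z.1.natAbs) (List.mem_toFinset.2 hz)
      omega
    · have := Finset.le_sup (f := fun n => ((rh i n).1).natAbs)
        (Finset.mem_range.2 (show n < max (nh i) (Rh i) + 1 by omega))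
      omega
  choose vl Ul ml hUl hUls hml hUlv hvl1 hvl2 using hextl
  choose vh Uh mh hUh hUhs hmh hUhv hvh1 hvh2 using hexth
  have hy : ∀ i, (yl i).natAbs ≤ B ∧ (yh i).natAbs ≤ B := fun i => by
    have h1 := hB₁ ⟨i, rfl⟩
    have h2 := hB₂ ⟨i, rfl⟩
    dsimp only at h1 h2
    omega
  have hord : ∀ i j : Fin 3, g ≤ a j - b i → ∀ (v v' y y' : ℤ), y.natAbs ≤ B → y'.natAbs ≤ B →
      ((v - σ * y : ℤ) : ℝ) ≤ b i * c → a j * c ≤ ((v' - σ * y' : ℤ) : ℝ) → v ≤ v' := by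
    intro i j hij v v' y y' h1 h2 h3 h4
    have hd : (σ * y - σ * y' : ℤ) ≤ 2 * (B : ℤ) := by rcases hσ with rfl | rfl <;> omega
    have hd' : ((σ * y - σ * y' : ℤ) : ℝ) ≤ 2 * (B : ℝ) := by exact_mod_cast hd
    have hc0 : (0 : ℝ) ≤ c := by
      have : (0 : ℤ) ≤ c := by omega
      exact_mod_cast this
    have h5 := mul_le_mul_of_nonneg_right hij hc0
    push_cast at h3 h4 hd'
    have : (v : ℝ) ≤ v' := by linarith
    exact_mod_cast this
  -- a meeting point contradicts the gap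
  have hbad : ∀ i j (z : V), z ∈ (Ul i).support → z ∈ (Uh j).support → False := by
    intro i j z hzl hzh
    obtain ⟨P₁, P₂, hP₁, hP₂, hPe⟩ := seg_split (t := t) (Ul i) (hUl i) hzl
    obtain ⟨Q₁, Q₂, hQ₁, hQ₂, hQe⟩ := seg_split (t := t) (Uh j) (hUh j) hzh
    have hA := (hl i).pot_le (Cl i u (Or.inl rfl)) ((P₁.append Q₂).copy (hml i).symm rfl) (by
      intro d hd; rw [SimpleGraph.Walk.darts_copy] at hd; exact walkIn_append hP₁ hQ₂ d hd)
    have hBd := (hh j).pot_le (Ch j w (Or.inr rfl)) ((Q₁.append P₂).copy (hmh j).symm rfl) (by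
      intro d hd; rw [SimpleGraph.Walk.darts_copy] at hd; exact walkIn_append hQ₁ hP₂ d hd)
    rw [plen_copy, plen_append] at hA hBd
    have := hεle i j
    have := hUlv i
    have := hUhv j
    have := hVl i
    have := hVh j
    linarith
  rcases le_total (vh 0) (vl 0) with h0 | h0
  · -- high, low, high, low
    obtain ⟨z, hz⟩ := swap_of_meet hmeet h0
      (hord 0 1 hg1 _ _ _ _ (hy 0).1 (hy 1).2 (hvl2 0) (hvh1 1))
      (hord 1 2 hg2 _ _ _ _ (hy 1).2 (hy 2).1 (hvh2 1) (hvl1 2))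
      (Uh 0) (Uh 1) (Ul 0) (Ul 2) (hUhs 0) (hUhs 1) (hUls 0) (hUls 2)
    rcases hz with ⟨h1, h2⟩ | ⟨h1, h2⟩ | ⟨h1, h2⟩ | ⟨h1, h2⟩ <;> exact hbad _ _ z h2 h1
  · -- low, high, low, high
    obtain ⟨z, hz⟩ := swap_of_meet hmeet h0
      (hord 0 1 hg1 _ _ _ _ (hy 0).2 (hy 1).1 (hvh2 0) (hvl1 1))
      (hord 1 2 hg2 _ _ _ _ (hy 1).1 (hy 2).2 (hvl2 1) (hvh1 2))
      (Ul 0) (Ul 1) (Uh 0) (Uh 2) (hUls 0) (hUls 1) (hUhs 0) (hUhs 2)
    rcases hz with ⟨h1, h2⟩ | ⟨h1, h2⟩ | ⟨h1, h2⟩ | ⟨h1, h2⟩ <;> exact hbad _ _ z h1 h2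

end Vale.Agent.P158.Units
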